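import Crest.Agent.N250.Master
import Crest.Agent.N250.T.Stm
import Crest.Agent.N250.A.Good

/-!
# Row 250 (helper90): block R at one fixed time, statements

`BootS` (self-improving regularity of an almost static flow), `Fam` (the models handed over by the
reduction), `StaticS` (Łojasiewicz inequality for almost shrinkers).
-/

set_option autoImplicit false
open MeasureTheory Set Filter Topology
open scoped ContDiff InnerProductSpace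
open Crest.GeometryTopology.MCF

noncomputable section

namespace Crest.Agent.N250

/-- first variation density of `∫ f dμ` -/
def Mv.fv (F : Mv) (f : E → ℝ) (p : ST) : ℝ := ⟪gradient f p.1, F.n p⟫_ℝ + F.H p * f p.1

/-- `∫ shr² e^{-|x|²/4} / (4π)` on the slice `0` -/
def Mv.dis (F : Mv) : ENNReal :=
  ∫⁻ x, ENNReal.ofReal (F.shr (x, 0) ^ 2 * gau 0 1 x) ∂F.mu 0

/-- flat at scale `a₀` on `B_r` ⟹ reach `c` and tiny `shr` on `B_{r+2}` -/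
def BootP (N : Mv) (R η η₀ a₀ c C κ r₀ : ℝ) : Prop :=
  ∀ r, r₀ ≤ r → r ≤ (1 - η) * R → (∀ x ∈ N.sl 0, ‖x‖ < r → A.Cone N (x, 0) η₀ a₀) →
    ∀ x ∈ N.sl 0, ‖x‖ < r + 2 →
      N.Reach (x, 0) c ∧ |N.shr (x, 0)| ≤ C * Real.exp (-κ * R ^ 2)

/-- almost static flows improve their own regularity at a fixed time -/
def BootS : Prop := ∀ Λ : ℝ, ∃ η₀ : ℝ, 0 < η₀ ∧ ∀ a₀ η : ℝ, 0 < a₀ → 0 < η → η < 1 →
  ∃ c C κ r₀ : ℝ, 0 < c ∧ 0 < κ ∧ ∀ (G : Mv) (a R : ℝ), a < -4 → Fl G (Ioo a 0) Λ → 0 ≤ R →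
    G.Fg 0 2 - G.Fg 0 1 ≤ Real.exp (-R ^ 2 / 4) →
    (G.freeze (-1)).dis ≤ ENNReal.ofReal (Real.exp (-R ^ 2 / 4)) →
    BootP (G.freeze (-1)) R η η₀ a₀ c C κ r₀

/-- `C²` closeness (with orientation) of two static surfaces on `B_R` -/
def Near (G S : Mv) (R ε : ℝ) : Prop :=
  (∀ x ∈ G.sl 0, ‖x‖ < R → ∃ y ∈ S.sl 0, dist x y < ε ∧ ‖G.n (x, 0) - S.n (y, 0)‖ < ε ∧
    ∀ a b, |G.A a b (x, 0) - S.A a b (y, 0)| < ε) ∧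
  ∀ y ∈ S.sl 0, ‖y‖ < R → ∃ x ∈ G.sl 0, dist x y < ε

/-- one model surface `G`, valid on `B_{ρ+3}`: critical point of the Gaussian area under the
constraints `∫ f i = ∫_S f i + ζ i`, with multipliers `c`, up to the tolerance `τ` -/
structure Model (S : Mv) {n : ℕ} (f : Fin n → E → ℝ) (ρ₀ C μ : ℝ) (N : ℕ) (ζ : Fin n → ℝ) (r τ : ℝ)
    (G : Mv) (ρ : ℝ) (c : Fin n → ℝ) : Prop where
  reg : G.Reg
  st : G.Static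
  proper : G.Proper (Metric.ball 0 (ρ + 3) ×ˢ univ)
  reach : ∀ x ∈ G.sl 0, ‖x‖ < ρ + 3 → G.Reach (x, 0) ρ₀
  pair : ∀ i, |∫ x, f i x ∂G.mu 0 - ∫ x, f i x ∂S.mu 0 - ζ i| ≤ τ
  el : ∀ x ∈ G.sl 0, ‖x‖ < ρ + 3 →
    |gau 0 1 x * G.shr (x, 0) - ∑ i, c i * G.fv (f i) (x, 0)| ≤ τ
  en : ∫⁻ x in Metric.ball 0 (ρ + 3), ENNReal.ofReal (gau 0 1 x) ∂G.mu 0 ≤
    ENNReal.ofReal (S.Fs 0 0 1 + C * ‖c‖ ^ μ + C * Real.exp (-ρ ^ 2 / 6))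
  le : ρ ≤ r
  alt : ρ = r ∨ 1 ≤ C * ρ ^ N * ‖c‖

/-- the constraint functions: the second variation is coercive on their kernel -/
structure Cons (S : Mv) {n : ℕ} (f : Fin n → E → ℝ) : Prop where
  sm : ∀ i, ContDiff ℝ ∞ (f i)
  cs : ∀ i, HasCompactSupport (f i)
  indep : ∀ c : Fin n → ℝ, (∀ x ∈ S.sl 0, ∑ i, c i * S.fv (f i) (x, 0) = 0) → c = 0
  coer : ∃ κ : ℝ, 0 < κ ∧ ∀ u : ST → ℝ, S.Sm u → S.CS u {0} →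
    κ * ∫ x, (u (x, 0) ^ 2 + S.gam u u (x, 0)) * gau 0 1 x ∂S.mu 0 ≤
      ∫ x, (S.gam u u (x, 0) - (S.A2 (x, 0) + 1 / 2) * u (x, 0) ^ 2) * gau 0 1 x ∂S.mu 0 +
        κ⁻¹ * ∑ i, (∫ x, S.fv (f i) (x, 0) * u (x, 0) ∂S.mu 0) ^ 2

/-- the family of models near `S` -/
def Fam (S : Mv) : Prop :=
  ∃ (n : ℕ) (f : Fin n → E → ℝ) (ρ₀ C μ : ℝ) (N : ℕ), Cons S f ∧ 0 < ρ₀ ∧ 0 < C ∧ 1 < μ ∧
    ∀ ε : ℝ, 0 < ε → ∃ δ : ℝ, 0 < δ ∧ ∀ (ζ : Fin n → ℝ) (r τ : ℝ), ‖ζ‖ < δ → δ⁻¹ < r → 0 < τ →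
      ∃ (G : Mv) (ρ : ℝ) (c : Fin n → ℝ),
        Model S f ρ₀ C μ N ζ r τ G ρ c ∧ ε⁻¹ ≤ ρ ∧ Near G S ε⁻¹ ε

/-- blocks R0, B1, B2, L -/
def FamS : Prop := ∀ (S : Mv) (Λ : ℝ) (m : Md), Sh S Λ m → Nonempty (Ends S) → Fam S

/-- the surfaces to which the static inequality applies -/
structure AlmS (N : Mv) (Λ R η η₀ a₀ c C κ r₀ : ℝ) : Prop where
  reg : N.Reg
  st : N.Static
  closed : IsClosed N.M
  ar : N.AR Λ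
  dis : N.dis ≤ ENNReal.ofReal (Real.exp (-R ^ 2 / 4))
  boot : BootP N R η η₀ a₀ c C κ r₀

/-- the static Łojasiewicz inequality -/
def StaticS : Prop := ∀ (S : Mv) (Λ : ℝ), S.IsShr → S.AR Λ → Fam S →
  ∃ η θ : ℝ, 0 < η ∧ η < 1 ∧ 1 / 2 < θ ∧ ∀ η₀ : ℝ, 0 < η₀ → ∃ a₀ : ℝ, 0 < a₀ ∧
    ∀ c C κ r₀ : ℝ, 0 < c → 0 < κ →
    ∀ (l : Ultrafilter ℝ) (N : ℝ → Mv) (R : ℝ → ℝ) (S' : Mv), S'.IsShr → S'.M = S.M →
      Tendsto R l atTop → Conv l N S' univ →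
      (∀ᶠ k in (l : Filter ℝ), AlmS (N k) Λ (R k) η η₀ a₀ c C κ r₀) →
      ∀ᶠ k in (l : Filter ℝ), (N k).Fs 0 0 1 ≤ S.Fs 0 0 1 + Real.exp (-θ * R k ^ 2 / 4)

/-- choice of the good time -/
def LsOfS : Prop := BootS → StaticS → ∀ (F S : Mv) (a Λ : ℝ) (m : Md), a < 0 →
  Cl F (Ioo a 0) Λ m → Sh S Λ m → Fam S → LS0 F S Λ m

theorem lsStmt_of (hB : BootS) (hS : StaticS) (hL : LsOfS) (hF : FamS) : LSStmt :=
  fun F S a Λ m ha hc hs he => (hL hB hS F S a Λ m ha hc hs (hF S Λ m hs he)).ls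

end Crest.Agent.N250

end
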