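import Crest.Agent.N250.R.One
import Crest.Agent.N250.Lim.A
import Crest.Agent.N250.Cv.Api
import Crest.Agent.N250.T.SelfSim
import Crest.Agent.N250.Tr.Inst
import Crest.Agent.N250.FV.Hu4

/-!
# Row 250 (helper46): the choice of the good time, `LsOfS`
-/

set_option autoImplicit false
open MeasureTheory Set Filter Topology
open scoped ContDiff InnerProductSpace
open Crest.GeometryTopology.MCF

noncomputable section

namespace Crest.Agent.N250.Ls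

open Tr

variable {F G S : Mv} {a Λ : ℝ}

theorem para_Ioo (h : Fl G (Ioo a 0) Λ) {lam : ℝ} (hl : 0 < lam) :
    Fl (G.para 0 lam) (Ioo (a * lam ^ 2) 0) Λ := by
  have h1 := para_fl 0 hl h
  have h2 : {t : ℝ | (0 : ST).2 + t / lam ^ 2 ∈ Ioo a 0} = Ioo (a * lam ^ 2) 0 := by
    ext t
    have : 0 < lam ^ 2 := by positivity
    simp only [Prod.snd_zero, zero_add, mem_Ioo, mem_ofPred_eq, lt_div_iff₀ this,
      div_lt_iff₀ this, zero_mul]
  rwa [h2] at h1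

theorem para_Fg0 (G : Mv) {lam : ℝ} (hl : 0 < lam) (r : ℝ) :
    (G.para 0 lam).Fg 0 r = G.Fg 0 (r / lam) := by
  rw [para_Fg 0 hl]
  simp only [Prod.fst_zero, smul_zero, add_zero, Prod.snd_zero, zero_div]
  rfl

theorem fg_mono0 (h : Fl G (Ioo a 0) Λ) {r s : ℝ} (hr : 0 < r) (hrs : r ≤ s) (hs : a < -s ^ 2) :
    G.Fg 0 r ≤ G.Fg 0 s :=
  Lim.fg_mono huiskenS_holds (tm_Ioo a) h 0 hr hrs
    ⟨hs, neg_lt_zero.2 (pow_pos (hr.trans_le hrs) 2)⟩

/-- the dissipation at one time -/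
def dis (G : Mv) (t : ℝ) : ENNReal :=
  ∫⁻ x, ENNReal.ofReal (G.dev 0 (x, t) ^ 2 * Phi 0 (x, t)) ∂G.mu t

theorem good_time (ha : a < -4) (h : Fl G (Ioo a 0) Λ) {δ : ℝ} (hδ : 0 < δ)
    (hD : 2 * (G.Fg 0 2 - G.Fg 0 (1 / 2)) ≤ δ) :
    ∃ s ∈ Icc (1 / 2 : ℝ) 1, dis G (-s ^ 2) ≤ ENNReal.ofReal δ := by
  have hH := (huiskenS_holds G _ Λ isOpen_Ioo h 0 (-1) (-(1 / 4)) (by norm_num) (by norm_num)
    (fun t ht => ⟨by linarith [ht.1], by linarith [ht.2]⟩)).2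
  have e1 : G.Fs (-1) (0 : ST).1 ((0 : ST).2 - -1) = G.Fg 0 1 := by
    simp [Mv.Fg]
  have e2 : G.Fs (-(1 / 4)) (0 : ST).1 ((0 : ST).2 - -(1 / 4)) = G.Fg 0 (1 / 2) := by
    simp only [Mv.Fg, Prod.snd_zero, zero_sub, neg_neg]
    norm_num
  rw [e1, e2] at hH
  have h12 : G.Fg 0 1 ≤ G.Fg 0 2 := fg_mono0 h one_pos (by norm_num) (by linarith)
  by_contra hn
  push Not at hn
  have h3 : ∀ t ∈ Ioo (-1 : ℝ) (-(1 / 4)), ENNReal.ofReal δ ≤ dis G t := by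
    intro t ht
    have h0 : 0 ≤ -t := by linarith [ht.2]
    have := hn (√(-t)) ⟨Real.le_sqrt_of_sq_le (by linarith [ht.2]),
      Real.sqrt_le_one.2 (by linarith [ht.1])⟩
    rw [Real.sq_sqrt h0, neg_neg] at this
    exact this.le
  have h4 : ENNReal.ofReal δ * ENNReal.ofReal (3 / 4) ≤
      G.stI (fun p => G.dev 0 p ^ 2 * Phi 0 p) (-1) (-(1 / 4)) := by
    have : ∫⁻ _ in Ioo (-1 : ℝ) (-(1 / 4)), ENNReal.ofReal δ =
        ENNReal.ofReal δ * ENNReal.ofReal (3 / 4) := by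
      rw [setLIntegral_const, Real.volume_Ioo]; norm_num
    rw [← this]
    exact setLIntegral_mono' measurableSet_Ioo h3
  rw [hH, ← ENNReal.ofReal_mul hδ.le, ENNReal.ofReal_le_ofReal_iff'] at h4
  rcases h4 with h4 | h4 <;> linarith

theorem freeze_dis (hG : G.Reg) : (G.freeze (-1)).dis = dis G (-1) := by
  refine lintegral_congr_ae ?_
  filter_upwards [ae_sl hG (-1)] with x hx
  have h1 : (G.freeze (-1)).H (x, 0) = G.H (x, -1) := SS.freeze_H hG (p := (x, 0)) hx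
  have h2 : (G.freeze (-1)).shr (x, 0) = G.dev 0 (x, -1) := by
    simp only [Mv.shr, Mv.dev, h1, Prod.fst_zero, Prod.snd_zero]
    norm_num
    rfl
  rw [h2]
  simp [Phi]

theorem dis_para (hG : G.Reg) {s : ℝ} (hs : 0 < s) (hs1 : s ≤ 1) :
    dis (G.para 0 s⁻¹) (-1) ≤ dis G (-s ^ 2) := by
  have hl : 0 < s⁻¹ := inv_pos.2 hs
  have hP := pull_para (0 : ST) hl G
  have hm0 : (paraS 0 s⁻¹).map 0 = 0 := by
    rw [paraS_map]; simp
  have hθ : (paraS 0 s⁻¹).θ (-1) = -s ^ 2 := by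
    simp [paraS]
  have hc : (paraS 0 s⁻¹).c (-1) = s := by
    simp [paraS]
  have h1 := hP.lint' (t := -1) (fun _ => mem_univ _)
    (fun x => ENNReal.ofReal (s ^ 2) * (ENNReal.ofReal (s ^ 2) *
      ENNReal.ofReal (G.dev 0 (x, -s ^ 2) ^ 2 * Phi 0 (x, -s ^ 2))))
  simp only [lintegral_const_mul' _ _ ENNReal.ofReal_ne_top] at h1
  rw [hθ, hc, ← mul_assoc (ENNReal.ofReal (s ^ 2)⁻¹),
    ← ENNReal.ofReal_mul (by positivity), inv_mul_cancel₀ (by positivity), ENNReal.ofReal_one,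
    one_mul] at h1
  have h2 : dis (G.para 0 s⁻¹) (-1) = ∫⁻ x, ENNReal.ofReal (s ^ 2) * (ENNReal.ofReal (s ^ 2) *
      ENNReal.ofReal (G.dev 0 ((paraS 0 s⁻¹).aff (-1) x, -s ^ 2) ^ 2 *
        Phi 0 ((paraS 0 s⁻¹).aff (-1) x, -s ^ 2))) ∂(G.para 0 s⁻¹).mu (-1) := by
    refine lintegral_congr_ae ?_
    filter_upwards [ae_sl (para_reg 0 hl hG) (-1)] with x hx
    rw [para_dev 0 hl hG hx, para_Phi 0 hl, hm0, Sim.map_eq, hθ, inv_inv,
      ← ENNReal.ofReal_mul (by positivity), ← ENNReal.ofReal_mul (by positivity)]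
    congr 1
    ring
  rw [h2, lintegral_const_mul' _ _ ENNReal.ofReal_ne_top,
    lintegral_const_mul' _ _ ENNReal.ofReal_ne_top, h1]
  refine mul_le_of_le_one_left' ?_
  rw [← ENNReal.ofReal_one]
  exact ENNReal.ofReal_le_ofReal (pow_le_one₀ hs.le hs1)

theorem freeze_st (G : Mv) (t : ℝ) : (G.freeze t).Static :=
  ⟨fun _ _ => Iff.rfl, fun _ _ => rfl, fun _ => rfl⟩

theorem freeze_ar (h : G.AR Λ) (t : ℝ) : (G.freeze t).AR Λ := fun _ y r hr => h t y r hr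

theorem freeze_closed {I : Set ℝ} (h : Fl G I Λ) {t : ℝ} (ht : t ∈ I) :
    IsClosed (G.freeze t).M := by
  refine isClosed_of_closure_subset fun p hp => ?_
  have hc : Continuous fun q : ST => (q.1, t) := by fun_prop
  exact h.proper (p.1, t) (map_mem_closure (f := fun q : ST => (q.1, t)) hc hp fun _ hq => hq)
    ⟨mem_univ _, ht⟩

theorem unresc_back (hS : S.Static) {s : ℝ} (hs : 0 < s) :
    (S.unresc.para 0 s⁻¹).freeze (-1) = S := by
  have hu : ∀ x : E, umap ((0 : ST).1 + s⁻¹⁻¹ • x, (0 : ST).2 + -1 / s⁻¹ ^ 2) =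
      (x, -Real.log (s ^ 2)) := by
    intro x
    have : -((0 : ST).2 + -1 / s⁻¹ ^ 2) = s ^ 2 := by
      simp only [Prod.snd_zero]; field_simp; ring
    simp only [umap, this, Real.sqrt_sq hs.le, Prod.fst_zero, zero_add, inv_inv, smul_smul,
      inv_mul_cancel₀ hs.ne', one_smul]
  have hneg : (0 : ST).2 + -1 / s⁻¹ ^ 2 < 0 := by
    simp only [Prod.snd_zero, zero_add]
    exact div_neg_of_neg_of_pos (by norm_num) (by positivity)
  obtain ⟨M, n, V⟩ := S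
  simp only [Mv.freeze, Mv.para, Mv.unresc, mem_ofPred_eq, hu, Mv.mk.injEq]
  refine ⟨?_, ?_, ?_⟩
  · ext p
    simp only [mem_ofPred_eq, hneg, true_and]
    exact (hS.mem _ _).trans (hS.mem p.1 p.2).symm
  · funext p
    exact (hS.n_eq _ _).trans (hS.n_eq p.1 p.2).symm
  · funext p
    exact (hS.V_eq p).symm

theorem sh_ar {m : Md} (h : Sh S Λ m) : S.AR Λ := by
  rw [← unresc_back h.shr.st one_pos]
  exact freeze_ar (para_ar 0 (by norm_num) h.cl.fl.ar) _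

theorem drop_zero (ha : a < 0) (h : Fl F (Ioo a 0) Λ) :
    Tendsto (fun lam : ℝ => F.Fg 0 (2 / lam) - F.Fg 0 (2 / (4 * lam))) atTop (𝓝 0) := by
  have hb : 0 < √(-a) := Real.sqrt_pos.2 (by linarith)
  have hm : MonotoneOn (F.Fg 0) (Ioo 0 √(-a)) := fun r hr s hs hrs =>
    fg_mono0 h hr.1 hrs (by have := (Real.lt_sqrt hs.1.le).1 hs.2; linarith)
  have hbd : BddBelow (F.Fg 0 '' Ioo 0 √(-a)) := by
    refine ⟨0, ?_⟩
    rintro _ ⟨r, hr, rfl⟩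
    exact integral_nonneg fun x => (Hu.gau_pos _ (pow_pos hr.1 2) x).le
  have ht := hm.tendsto_nhdsWithin_Ioo_right (nonempty_Ioo.2 hb) hbd
  have h1 : ∀ c : ℝ, 0 < c → Tendsto (fun lam : ℝ => 2 / (c * lam)) atTop (𝓝[>] 0) := by
    intro c hc
    refine tendsto_nhdsWithin_iff.2 ⟨tendsto_const_nhds.div_atTop
      (tendsto_id.const_mul_atTop hc), ?_⟩
    filter_upwards [eventually_gt_atTop 0] with x hx
    exact div_pos two_pos (mul_pos hc hx)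
  have h2 := (ht.comp (h1 1 one_pos)).sub (ht.comp (h1 4 (by norm_num)))
  simpa [Function.comp_def] using h2

theorem exists_delta {θ D g e : ℝ} (hθ : 0 < θ) (hD : 0 ≤ D) (he : 0 < e)
    (h : 2 ^ θ * D ^ θ < g) : ∃ δ, 0 < δ ∧ 2 * D ≤ δ ∧ δ ≤ 2 * D + e ∧ δ ^ θ < g := by
  rw [← Real.mul_rpow (by norm_num) hD] at h
  have h1 : ∀ᶠ δ in 𝓝 (2 * D), δ ^ θ < g :=
    (Real.continuousAt_rpow_const _ _ (Or.inr hθ.le)).eventually (gt_mem_nhds h)
  have h2 : ∀ᶠ δ in 𝓝 (2 * D), δ < 2 * D + e := gt_mem_nhds (by linarith)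
  obtain ⟨δ, ⟨h3, h4⟩, h5⟩ := (((h1.and h2).filter_mono nhdsWithin_le_nhds).and
    (self_mem_nhdsWithin (s := Ioi (2 * D)))).exists
  have h6 : 2 * D < δ := h5
  exact ⟨δ, by linarith, h6.le, h4.le, h3⟩

end Crest.Agent.N250.Ls

namespace Crest.Agent.N250

open Ls Tr

theorem lsOfS_holds : LsOfS := by
  intro hB hSt F S a Λ m ha hc hs hF
  obtain ⟨η, θ, hη, hη1, hθ, hSt⟩ := hSt S Λ hs.shr (sh_ar hs) hF
  obtain ⟨η₀, hη₀, hB⟩ := hB Λ
  obtain ⟨a₀, ha₀, hSt⟩ := hSt η₀ hη₀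
  obtain ⟨c, C, κ, r₀, hc0, hκ, hB⟩ := hB a₀ η ha₀ hη hη1
  have hθ0 : 0 < θ := by linarith
  refine ⟨θ, 2 ^ θ, hθ, by positivity, fun l S' hl hS' hM hcv => ?_⟩
  set D : ℝ → ℝ := fun lam => F.Fg 0 (2 / lam) - F.Fg 0 (2 / (4 * lam)) with hDdef
  have hbig : ∀ᶠ lam in (l : Filter ℝ), 0 < lam ∧ a * lam ^ 2 < -4 := by
    refine hl ((eventually_gt_atTop 0).and ?_)
    exact ((tendsto_pow_atTop two_ne_zero).const_mul_atTop_of_neg ha).eventually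
      (eventually_lt_atBot (-4))
  have hG : ∀ lam, 0 < lam → ∀ r, (F.para 0 lam).Fg 0 r = F.Fg 0 (r / lam) :=
    fun lam h r => para_Fg0 F h r
  have hDG : ∀ lam, 0 < lam →
      D lam = (F.para 0 lam).Fg 0 2 - (F.para 0 lam).Fg 0 (1 / 2) := by
    intro lam h
    rw [hG lam h, hG lam h, show 1 / 2 / lam = 2 / (4 * lam) by field_simp; norm_num]
  have hD0 : ∀ᶠ lam in (l : Filter ℝ), 0 ≤ D lam := by
    filter_upwards [hbig] with lam h
    rw [hDG lam h.1, sub_nonneg]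
    exact fg_mono0 (para_Ioo hc.fl h.1) (by norm_num) (by norm_num) (by linarith [h.2])
  refine hD0.and ?_
  by_contra hn
  rw [← Ultrafilter.eventually_not] at hn
  have hδ : ∀ lam : ℝ, ∃ δ s : ℝ, s ∈ Icc (1 / 2 : ℝ) 1 ∧ (0 < lam → a * lam ^ 2 < -4 → 0 ≤ D lam →
      2 ^ θ * D lam ^ θ < F.Fg 0 (2 / (4 * lam)) - S.Fs 0 0 1 →
      0 < δ ∧ 2 * D lam ≤ δ ∧ δ ≤ 2 * D lam + lam⁻¹ ∧
        δ ^ θ < F.Fg 0 (2 / (4 * lam)) - S.Fs 0 0 1 ∧
        Ls.dis (F.para 0 lam) (-s ^ 2) ≤ ENNReal.ofReal δ) := by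
    intro lam
    by_cases h : 0 < lam ∧ a * lam ^ 2 < -4 ∧ 0 ≤ D lam ∧
      2 ^ θ * D lam ^ θ < F.Fg 0 (2 / (4 * lam)) - S.Fs 0 0 1
    · obtain ⟨h1, h2, h3, h4⟩ := h
      obtain ⟨δ, d1, d2, d3, d4⟩ := exists_delta hθ0 h3 (inv_pos.2 h1) h4
      obtain ⟨s, s1, s2⟩ := good_time h2 (para_Ioo hc.fl h1) d1 (by rwa [← hDG lam h1])
      exact ⟨δ, s, s1, fun _ _ _ _ => ⟨d1, d2, d3, d4, s2⟩⟩
    · exact ⟨0, 1, ⟨by norm_num, le_rfl⟩, fun h1 h2 h3 h4 => (h ⟨h1, h2, h3, h4⟩).elim⟩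
  choose δ s hsI hδ using hδ
  have hs0 : ∀ lam, 0 < s lam := fun lam => lt_of_lt_of_le (by norm_num) (hsI lam).1
  have hev : ∀ᶠ lam in (l : Filter ℝ), 0 < δ lam ∧ 2 * D lam ≤ δ lam ∧
      δ lam ≤ 2 * D lam + lam⁻¹ ∧ δ lam ^ θ < F.Fg 0 (2 / (4 * lam)) - S.Fs 0 0 1 ∧
        Ls.dis (F.para 0 lam) (-s lam ^ 2) ≤ ENNReal.ofReal (δ lam) := by
    filter_upwards [hbig, hD0, hn] with lam h1 h2 h3
    exact hδ lam h1.1 h1.2 h2 (not_le.1 h3)
  have hδ0 : Tendsto δ l (𝓝[>] 0) := by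
    refine tendsto_nhdsWithin_iff.2 ⟨?_, hev.mono fun _ h => h.1⟩
    have h1 : Tendsto (fun lam => 2 * D lam + lam⁻¹) l (𝓝 0) := by
      have := (((drop_zero ha hc.fl).const_mul 2).add tendsto_inv_atTop_zero).mono_left hl
      simpa using this
    exact tendsto_of_tendsto_of_tendsto_of_le_of_le' tendsto_const_nhds h1
      (hev.mono fun _ h => h.1.le) (hev.mono fun _ h => h.2.2.1)
  set R : ℝ → ℝ := fun lam => √(-4 * Real.log (δ lam)) with hR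
  have hlog : Tendsto (fun lam => -4 * Real.log (δ lam)) l atTop :=
    (Real.tendsto_log_nhdsGT_zero.comp hδ0).const_mul_atBot_of_neg (by norm_num)
  have hRt : Tendsto R l atTop := Real.tendsto_sqrt_atTop.comp hlog
  have hR2 : ∀ᶠ lam in (l : Filter ℝ), R lam ^ 2 = -4 * Real.log (δ lam) :=
    (hlog.eventually (eventually_ge_atTop 0)).mono fun _ h => Real.sq_sqrt h
  obtain ⟨s₀, hs₀, hst⟩ := isCompact_Icc.ultrafilter_le_nhds (l.map s)
    (le_principal_iff.2 (mem_map.2 (univ_mem' hsI)))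
  have hs₀0 : 0 < s₀ := lt_of_lt_of_le (by norm_num) hs₀.1
  have hst' : Tendsto s l (𝓝 s₀) := hst
  have hc1 := Cv.conv_para hcv Lim.isOpen_NT (Xk := fun _ => 0) (X := 0) tendsto_const_nhds
    (hst'.inv₀ hs₀0.ne') (inv_pos.2 hs₀0)
  have hc2 := Cv.conv_freeze hc1 (Lim.isOpen_NT.preimage (by fun_prop)) (tk := fun _ => -1)
    (t := -1) tendsto_const_nhds
  rw [unresc_back hS'.shr.st hs₀0] at hc2
  have hc3 := Cv.conv_mono hc2 (Ω' := univ) fun p _ => ⟨mem_univ _, by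
    simp only [Prod.snd_zero, zero_add, mem_Iio]
    exact div_neg_of_neg_of_pos (by norm_num) (by positivity)⟩
  have hmain : ∀ᶠ lam in (l : Filter ℝ),
      AlmS (((F.para 0 lam).para 0 (s lam)⁻¹).freeze (-1)) Λ (R lam) η η₀ a₀ c C κ r₀ ∧
      F.Fg 0 (2 / (4 * lam)) ≤ (((F.para 0 lam).para 0 (s lam)⁻¹).freeze (-1)).Fs 0 0 1 := by
    filter_upwards [hbig, hev, hR2, hD0] with lam h1 h2 h3 h4
    have hf := para_Ioo hc.fl h1.1
    have hi : 0 < (s lam)⁻¹ := inv_pos.2 (hs0 lam)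
    have hf' := para_Ioo hf hi
    have hi1 : 1 ≤ (s lam)⁻¹ ^ 2 := one_le_pow₀ ((one_le_inv₀ (hs0 lam)).2 (hsI lam).2)
    have ha' : a * lam ^ 2 * (s lam)⁻¹ ^ 2 < -4 := by nlinarith [h1.2]
    have he : Real.exp (-R lam ^ 2 / 4) = δ lam := by
      rw [h3, show -(-4 * Real.log (δ lam)) / 4 = Real.log (δ lam) by ring, Real.exp_log h2.1]
    have hdis : (((F.para 0 lam).para 0 (s lam)⁻¹).freeze (-1)).dis ≤
        ENNReal.ofReal (Real.exp (-R lam ^ 2 / 4)) := by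
      rw [freeze_dis hf'.mcf.1, he]
      exact (dis_para hf.mcf.1 (hs0 lam) (hsI lam).2).trans h2.2.2.2.2
    have m1 : (F.para 0 lam).Fg 0 (1 / 2) ≤ (F.para 0 lam).Fg 0 (1 / (s lam)⁻¹) := by
      rw [one_div (s lam)⁻¹, inv_inv]
      exact fg_mono0 hf (by norm_num) (hsI lam).1
        (by nlinarith [h1.2, (hsI lam).2, hs0 lam])
    have m2 : (F.para 0 lam).Fg 0 (2 / (s lam)⁻¹) ≤ (F.para 0 lam).Fg 0 2 := by
      rw [div_inv_eq_mul]
      exact fg_mono0 hf (by linarith [hs0 lam]) (by linarith [(hsI lam).2]) (by linarith [h1.2])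
    refine ⟨⟨SS.freeze_reg hf'.mcf.1 _, freeze_st _ _,
      freeze_closed hf' ⟨by linarith, by norm_num⟩, freeze_ar hf'.ar _, hdis,
      hB _ _ _ ha' hf' (Real.sqrt_nonneg _) ?_ hdis⟩, ?_⟩
    · rw [para_Fg0 _ hi, para_Fg0 _ hi, he]
      have := hDG lam h1.1
      linarith [h2.2.1]
    · have e : (((F.para 0 lam).para 0 (s lam)⁻¹).freeze (-1)).Fs 0 0 1 =
          ((F.para 0 lam).para 0 (s lam)⁻¹).Fg 0 1 := by
        simp only [Mv.Fg, Prod.snd_zero, Prod.fst_zero, one_pow, zero_sub]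
        rfl
      rw [e, para_Fg0 _ hi]
      refine le_trans (le_of_eq ?_) m1
      rw [hG lam h1.1, show 1 / 2 / lam = 2 / (4 * lam) by have := h1.1; field_simp; norm_num]
  have hfin := hSt c C κ r₀ hc0 hκ l _ R S' hS'.shr hM hRt hc3 (hmain.mono fun _ h => h.1)
  obtain ⟨lam, ⟨h1, h2⟩, h3, h4⟩ := ((hfin.and hmain).and (hev.and hR2)).exists
  have he : Real.exp (-θ * R lam ^ 2 / 4) = δ lam ^ θ := by
    rw [h4, Real.rpow_def_of_pos h3.1]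
    congr 1
    ring
  linarith [h2.2, h3.2.2.2.1]

end Crest.Agent.N250

end
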