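import Crest.Agent.N250.MP.Avoid
import Crest.Agent.N250.Re.Pt

/-!
# Row 250, block R (helper59): barriers on annuli of a slice (S5, S6 of the one-time scheme)
-/

set_option autoImplicit false
open MeasureTheory Set Filter Topology
open scoped ContDiff InnerProductSpace
open Crest.GeometryTopology.MCF

noncomputable section

namespace Crest.Agent.N250.Bar

open MP

variable {F : Mv} {p : ST}

/-- `|x|²` -/
def sq (q : ST) : ℝ := ‖q.1‖ ^ 2

theorem cd_sq : ContDiff ℝ ∞ sq := contDiff_fst.norm_sq ℝ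

/-- the inner product of the space parts -/
def Bi : ST →L[ℝ] ST →L[ℝ] ℝ :=
  (innerSL ℝ (E := E)).bilinearComp (ContinuousLinearMap.fst ℝ E ℝ) (ContinuousLinearMap.fst ℝ E ℝ)

theorem fd_sq : fderiv ℝ sq = fun q => ((2 : ℝ) • Bi) q := funext fun q => by
  have := (hasFDerivAt_fst (𝕜 := ℝ) (p := q)).norm_sq
  refine (this.congr_fderiv (ContinuousLinearMap.ext fun v => ?_)).fderiv
  simp [Bi]

theorem fd_sq_apply (q : ST) (v : E) (s : ℝ) : fderiv ℝ sq q (v, s) = 2 * ⟪q.1, v⟫_ℝ := by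
  simp [fd_sq, Bi]

theorem isum (u v : E) : ⟪u, v⟫_ℝ = ∑ a, u a * v a := by
  simp only [PiLp.inner_apply, RCLike.inner_apply, conj_trivial, mul_comm]

theorem D_sq (hF : F.Reg) (hp : p ∈ F.M) (a : Fin 3) :
    F.D a sq p = 2 * (p.1 a - F.xn 0 p * F.n p a) := by
  rw [D_eq hF hp (cd_sq.differentiable (by simp) p) EventuallyEq.rfl, fd_sq_apply]
  simp [Mv.PL, Mv.xn, inner_sub_right, inner_smul_right, EuclideanSpace.inner_single_right,
    mul_comm]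

theorem drift_sq (hF : F.Reg) (hp : p ∈ F.M) :
    ∑ a, p.1 a * F.D a sq p = 2 * (‖p.1‖ ^ 2 - F.xn 0 p ^ 2) := by
  have h1 : ‖p.1‖ ^ 2 = ∑ a, p.1 a * p.1 a := by rw [← real_inner_self_eq_norm_sq, isum]
  have h2 : F.xn 0 p = ∑ a, p.1 a * F.n p a := by rw [Mv.xn, sub_zero, isum]
  simp only [D_sq hF hp, h1, Fin.sum_univ_three] at h2 ⊢
  linear_combination (2 * F.xn 0 p) * h2

theorem gam_sq (hF : F.Reg) (hp : p ∈ F.M) :
    ∑ a, F.D a sq p * F.D a sq p = 4 * (‖p.1‖ ^ 2 - F.xn 0 p ^ 2) := by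
  have h1 : ‖p.1‖ ^ 2 = ∑ a, p.1 a * p.1 a := by rw [← real_inner_self_eq_norm_sq, isum]
  have h2 : F.xn 0 p = ∑ a, p.1 a * F.n p a := by rw [Mv.xn, sub_zero, isum]
  have h3 := inner_nn hF hp
  rw [isum] at h3
  simp only [D_sq hF hp, h1, Fin.sum_univ_three] at h2 h3 ⊢
  linear_combination (8 * F.xn 0 p) * h2 + (4 * F.xn 0 p ^ 2) * h3

theorem lap_sq (hF : F.Reg) (hp : p ∈ F.M) : F.lap sq p = 4 - 2 * (F.H p * F.xn 0 p) := by
  rw [lap_amb hF hp (cd_sq.of_le (by norm_cast)).contDiffAt EventuallyEq.rfl, fd_sq_apply, fd_sq,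
    ContinuousLinearMap.fderiv]
  have e : ∀ v : E, ((2 : ℝ) • Bi) ((v, 0) : ST) ((v, 0) : ST) = 2 * ⟪v, v⟫_ℝ := fun v => by
    simp [Bi]
  simp only [e, ← Finset.mul_sum, sum_PL_sq hF hp, Mv.xn, sub_zero]
  ring

/-- linearity for functions that are only `C²` at the point -/
theorem lin (hF : F.Reg) (hp : p ∈ F.M) {v W : ST → ℝ} (hv : ContDiffWithinAt ℝ 2 v F.M p)
    (hW : ContDiffAt ℝ 2 W p) (σ : ℝ) :
    (∀ a, F.D a (fun q => σ * v q - W q) p = σ * F.D a v p - F.D a W p) ∧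
      F.lap (fun q => σ * v q - W q) p = σ * F.lap v p - F.lap W p := by
  obtain ⟨g, hg, he⟩ := exists_ext hF hp (m := 2) hv
  have hg' : ContDiffAt ℝ 2 g p := hg
  have h1 : ContDiffAt ℝ 2 (fun q => σ * g q - W q) p := (contDiffAt_const.mul hg').sub hW
  have h2 : (fun q => σ * v q - W q) =ᶠ[𝓝[F.M] p] fun q => σ * g q - W q :=
    he.mono fun q hq => by simp only [hq]
  have h3 : fderiv ℝ (fun q => σ * g q - W q) =ᶠ[𝓝 p] fun q => σ • fderiv ℝ g q - fderiv ℝ W q := by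
    filter_upwards [hg'.eventually (by simp), hW.eventually (by simp)] with q a b
    exact (((a.differentiableAt (by simp)).hasFDerivAt.const_mul σ).sub
      (b.differentiableAt (by simp)).hasFDerivAt).fderiv
  have h4 : fderiv ℝ (fderiv ℝ fun q => σ * g q - W q) p =
      σ • fderiv ℝ (fderiv ℝ g) p - fderiv ℝ (fderiv ℝ W) p := by
    rw [h3.fderiv_eq]
    exact (((((hg'.fderiv_right (m := 1) (by norm_num)).differentiableAt
      (by simp)).hasFDerivAt).const_smul σ).sub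
      ((hW.fderiv_right (m := 1) (by norm_num)).differentiableAt (by simp)).hasFDerivAt).fderiv
  refine ⟨fun a => ?_, ?_⟩
  · rw [D_eq hF hp (h1.differentiableAt (by simp)) h2, D_eq hF hp (hg'.differentiableAt (by simp)) he,
      D_eq hF hp (hW.differentiableAt (by simp)) EventuallyEq.rfl, h3.self_of_nhds]
    simp
  · rw [lap_amb hF hp h1 h2, lap_amb hF hp hg' he, lap_amb hF hp hW EventuallyEq.rfl,
      h3.self_of_nhds, h4]
    simp only [sub_apply, smul_apply, smul_eq_mul,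
      Finset.sum_sub_distrib, ← Finset.mul_sum]
    ring

theorem num {K γ g τ : ℝ} (hK : 0 ≤ K) (hγ : 0 < γ) (h1 : γ ≤ g) (h2 : g ≤ 1 / 5)
    (hτ : 5 * (2 * K + 4 + 2 * K ^ 2 + (K + 1) / γ) ≤ τ) :
    g * (4 + 2 * K ^ 2) + 4 * g ^ 2 * τ ^ 2 - g * τ ^ 2 + (K + 1) + 2 * K * g * τ ≤ 0 := by
  have hg : 0 < g := hγ.trans_le h1
  have h3 : K + 1 ≤ g * ((K + 1) / γ) := by
    rw [mul_div_assoc', le_div_iff₀ hγ]; nlinarith
  have h4 : 0 ≤ (K + 1) / γ := by positivity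
  have h5 : 1 ≤ τ := by nlinarith [sq_nonneg K]
  have h6 : g * τ * (2 * K + 4 + 2 * K ^ 2 + (K + 1) / γ) ≤ g * τ * (τ / 5) :=
    mul_le_mul_of_nonneg_left (by linarith) (by positivity)
  have h7 : g * (4 + 2 * K ^ 2) + (K + 1) ≤ τ * (g * (4 + 2 * K ^ 2) + g * ((K + 1) / γ)) := by
    have : 0 ≤ g * (4 + 2 * K ^ 2) + g * ((K + 1) / γ) := by positivity
    nlinarith
  have h8 : 4 * g ^ 2 * τ ^ 2 ≤ 4 / 5 * (g * τ ^ 2) := by
    have : 0 ≤ g * τ ^ 2 := by positivity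
    nlinarith
  nlinarith

/-- the barrier is a strict supersolution -/
theorem super (hF : F.Reg) (hp : p ∈ F.M) {K γ A B : ℝ} (hK : 0 ≤ K) (hγ : 0 < γ) (hγ' : γ ≤ 1 / 5)
    (hA : 0 ≤ A) (hB : 0 ≤ B) (hx : 5 * (2 * K + 4 + 2 * K ^ 2 + (K + 1) / γ) + K ≤ ‖p.1‖)
    (hH : |F.H p| ≤ K) (hn : |F.xn 0 p| ≤ K) (W : ST → ℝ)
    (hW : W = fun q => A * Real.exp (γ * sq q) + B * Real.exp (1 / 5 * sq q)) :
    F.lap W p - (∑ a, p.1 a * F.D a W p) / 2 + (K + 1) * W p + K * √(F.gam W W p) ≤ 0 := by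
  let ψ : ℝ → ℝ := fun s => A * Real.exp (γ * s) + B * Real.exp (1 / 5 * s)
  have d1 : ∀ (A B s : ℝ), HasDerivAt (fun s => A * Real.exp (γ * s) + B * Real.exp (1 / 5 * s))
      (A * γ * Real.exp (γ * s) + B / 5 * Real.exp (1 / 5 * s)) s := fun A B s => by
    have := ((((hasDerivAt_id s).const_mul γ).exp).const_mul A).add
      ((((hasDerivAt_id s).const_mul (1 / 5)).exp).const_mul B)
    refine (this.congr_deriv ?_)
    simp only [id]; ring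
  have d2 : deriv ψ = fun s => A * γ * Real.exp (γ * s) + B / 5 * Real.exp (1 / 5 * s) :=
    funext fun s => (d1 A B s).deriv
  have hs : F.Sm sq := cd_sq.contDiffOn
  have e1 : ∀ a, F.D a W p = deriv ψ (sq p) * F.D a sq p := fun a => by
    rw [hW, d2]; exact hF.D_comp hp (ψ := ψ) hs (d1 A B _) a
  have e2 : F.lap W p = deriv ψ (sq p) * F.lap sq p + deriv (deriv ψ) (sq p) * F.gam sq sq p := by
    rw [hW]; exact hF.lap_comp hp (ψ := ψ) hs (by simp only [ψ]; fun_prop)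
  set T := 5 * (2 * K + 4 + 2 * K ^ 2 + (K + 1) / γ) with hT
  have hT0 : 0 ≤ T := by positivity
  have h0 : T ^ 2 ≤ ‖p.1‖ ^ 2 - F.xn 0 p ^ 2 := by
    have := sq_le_sq' (neg_le_of_abs_le hn) (le_of_abs_le hn)
    nlinarith [mul_nonneg hT0 hK]
  obtain ⟨τ, hτ, hτ2⟩ : ∃ τ, T ≤ τ ∧ ‖p.1‖ ^ 2 - F.xn 0 p ^ 2 = τ ^ 2 :=
    ⟨√(‖p.1‖ ^ 2 - F.xn 0 p ^ 2), Real.le_sqrt_of_sq_le h0,
      (Real.sq_sqrt ((sq_nonneg T).trans h0)).symm⟩
  set u := A * Real.exp (γ * sq p)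
  set w := B * Real.exp (1 / 5 * sq p)
  have hu : 0 ≤ u := by positivity
  have hw : 0 ≤ w := by positivity
  have e3 : deriv ψ (sq p) = γ * u + 1 / 5 * w := by rw [d2]; simp only [u, w]; ring
  have e4 : deriv (deriv ψ) (sq p) = γ ^ 2 * u + (1 / 5) ^ 2 * w := by
    rw [d2, (d1 _ _ _).deriv]; simp only [u, w]; ring
  have e5 : √(F.gam W W p) = (γ * u + 1 / 5 * w) * (2 * τ) := by
    rw [Real.sqrt_eq_iff_mul_self_eq (Mv.gam_self_nonneg _ _) (by have := hT0.trans hτ; positivity),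
      Mv.gam_apply]
    have := gam_sq hF hp
    simp only [e1, e3, Fin.sum_univ_three] at this ⊢
    linear_combination (γ * u + 1 / 5 * w) ^ 2 * (this + 4 * hτ2)
  have e6 : ∑ a, p.1 a * F.D a W p = (γ * u + 1 / 5 * w) * (2 * τ ^ 2) := by
    rw [← hτ2, ← drift_sq hF hp, Finset.mul_sum]
    exact Finset.sum_congr rfl fun a _ => by rw [e1, e3]; ring
  have e7 : W p = u + w := by rw [hW]
  have e8 : -(F.H p * F.xn 0 p) ≤ K ^ 2 := by
    have := abs_mul (F.H p) (F.xn 0 p) ▸ neg_abs_le (F.H p * F.xn 0 p)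
    nlinarith [mul_le_mul hH hn (abs_nonneg _) hK]
  rw [e2, e3, e4, e5, e6, e7, lap_sq hF hp, Mv.gam_apply, gam_sq hF hp, hτ2]
  have n1 := mul_le_mul_of_nonneg_left (num hK hγ le_rfl hγ' hτ) hu
  have n2 := mul_le_mul_of_nonneg_left (num hK hγ hγ' le_rfl hτ) hw
  have n3 := mul_le_mul_of_nonneg_left e8 (show 0 ≤ γ * u + 1 / 5 * w by positivity)
  nlinarith

/-- the closed annulus of a slice -/
def An (F : Mv) (t r₁ r₂ : ℝ) : Set E := {x | x ∈ F.sl t ∧ r₁ ≤ ‖x‖ ∧ ‖x‖ ≤ r₂}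

theorem locMax {t r₁ r₂ : ℝ} {x : E} {u : ST → ℝ} (h1 : r₁ < ‖x‖)
    (hm : ∀ y ∈ An F t r₁ r₂, u (y, t) ≤ u (x, t)) :
    IsLocalMaxOn u (F.M ∩ {q | q.2 = t} ∩ {q | ‖q.1‖ ≤ r₂}) (x, t) := by
  have : ∀ᶠ q : ST in 𝓝 (x, t), r₁ < ‖q.1‖ :=
    continuous_fst.norm.continuousAt.eventually (lt_mem_nhds h1)
  filter_upwards [nhdsWithin_le_nhds this, self_mem_nhdsWithin] with q a b
  obtain ⟨y, s⟩ := q
  obtain ⟨⟨b1, rfl⟩, b3⟩ := b
  exact hm y ⟨b1, a.le, b3⟩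

theorem contOn {t : ℝ} {A : Set E} {v : ST → ℝ} (hA : A ⊆ F.sl t)
    (hv : ∀ x ∈ A, ContinuousWithinAt v F.M (x, t)) : ContinuousOn (fun x => v (x, t)) A :=
  fun x hx => ContinuousWithinAt.comp (f := fun x : E => ((x, t) : ST)) (hv x hx)
    (by fun_prop : Continuous fun x : E => ((x, t) : ST)).continuousWithinAt fun _ hy => hA hy

/-- the barrier -/
def bar (γ A B : ℝ) (q : ST) : ℝ := A * Real.exp (γ * sq q) + B * Real.exp (1 / 5 * sq q)

theorem bar_ge {γ A B : ℝ} (hγ : 0 < γ) (hA : 0 ≤ A) (hB : 0 ≤ B) (q : ST) : A ≤ bar γ A B q := by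
  have h1 : 1 ≤ Real.exp (γ * sq q) := Real.one_le_exp (by unfold sq; positivity)
  have h2 : 0 ≤ B * Real.exp (1 / 5 * sq q) := by positivity
  have := mul_le_mul_of_nonneg_left h1 hA
  unfold bar; linarith

theorem bar_cd (γ A B : ℝ) : ContDiff ℝ 2 (bar γ A B) := by
  have := cd_sq.of_le (m := 2) (by norm_cast)
  unfold bar; fun_prop

theorem bar_mul (γ A B l : ℝ) (q : ST) : bar γ (l * A) (l * B) q = l * bar γ A B q := by
  unfold bar; ring

/-- no interior contact with the barrier -/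
theorem no_touch (hF : F.Reg) (hp : p ∈ F.M) {K γ A B e σ : ℝ} {v : ST → ℝ} (hK : 0 ≤ K)
    (hγ : 0 < γ) (hγ' : γ ≤ 1 / 5) (hA : 0 ≤ A) (hB : 0 ≤ B) (he : e < A) (hσ : σ * σ = 1)
    (hx : 5 * (2 * K + 4 + 2 * K ^ 2 + (K + 1) / γ) + K ≤ ‖p.1‖)
    (hH : |F.H p| ≤ K) (hn : |F.xn 0 p| ≤ K) (hv : ContDiffWithinAt ℝ 2 v F.M p)
    (hL : |F.lap v p - (∑ i, p.1 i * F.D i v p) / 2| ≤ K * |v p| + K * √(F.gam v v p) + e)
    (h0 : σ * v p = bar γ A B p)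
    (hm : IsLocalMaxOn (fun q => σ * v q - bar γ A B q) (F.M ∩ {q | q.2 = p.2}) p) : False := by
  have hσ1 : |σ| = 1 := by
    have := abs_mul_abs_self σ
    nlinarith [abs_nonneg σ]
  have hσ' : ∀ y : ℝ, |σ * y| = |y| := fun y => by rw [abs_mul, hσ1, one_mul]
  have hu : ContDiffWithinAt ℝ 2 (fun q => σ * v q - bar γ A B q) F.M p :=
    (contDiffWithinAt_const.mul hv).sub (bar_cd γ A B).contDiffAt.contDiffWithinAt
  obtain ⟨l1, l2⟩ := lin hF hp hv (bar_cd γ A B).contDiffAt σ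
  have m2 := (max_slice hF hp hu hm).1
  have m3 := max_lap hF hp hu hm
  have s := super hF hp hK hγ hγ' hA hB hx hH hn (bar γ A B) rfl
  have e1 : ∀ i, F.D i (bar γ A B) p = σ * F.D i v p := fun i => by linarith [l1 i, m2 i]
  have e2 : F.gam (bar γ A B) (bar γ A B) p = F.gam v v p := by
    simp only [Mv.gam_apply, e1]
    exact Finset.sum_congr rfl fun i _ => by linear_combination (F.D i v p) ^ 2 * hσ
  have e3 : ∑ i, p.1 i * F.D i (bar γ A B) p = σ * ∑ i, p.1 i * F.D i v p := by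
    rw [Finset.mul_sum]; exact Finset.sum_congr rfl fun i _ => by rw [e1]; ring
  have e5 := bar_ge hγ hA hB p
  have e4 : |v p| = bar γ A B p := by rw [← hσ', h0, abs_of_nonneg (hA.trans e5)]
  rw [← hσ', e4] at hL
  rw [e2, e3] at s
  have := neg_le_of_abs_le hL
  linarith

/-- S5: the barrier estimate on an annulus -/
theorem s5 {K γ : ℝ} (hK : 0 ≤ K) (hγ : 0 < γ) (hγ' : γ ≤ 1 / 5) : ∃ R₁ : ℝ, 0 < R₁ ∧
    ∀ (F : Mv) (t R₀ r a b e : ℝ) (v : ST → ℝ), F.Reg → R₁ ≤ R₀ → 0 ≤ a → 0 ≤ b → 0 ≤ e →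
      IsCompact (An F t R₀ r) → (∀ x ∈ An F t R₀ r, ContDiffWithinAt ℝ 2 v F.M (x, t)) →
      (∀ x ∈ F.sl t, R₀ < ‖x‖ → ‖x‖ < r → |F.H (x, t)| ≤ K ∧ |F.xn 0 (x, t)| ≤ K ∧
        |F.lap v (x, t) - (∑ i, x i * F.D i v (x, t)) / 2| ≤
          K * |v (x, t)| + K * √(F.gam v v (x, t)) + e) →
      (∀ x ∈ F.sl t, ‖x‖ = R₀ → |v (x, t)| ≤ a) → (∀ x ∈ F.sl t, ‖x‖ = r → |v (x, t)| ≤ b) →
      ∀ x ∈ An F t R₀ r,
        |v (x, t)| ≤ (a + e) * Real.exp (γ * ‖x‖ ^ 2) + b * Real.exp ((‖x‖ ^ 2 - r ^ 2) / 5) := by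
  refine ⟨5 * (2 * K + 4 + 2 * K ^ 2 + (K + 1) / γ) + K, by positivity, ?_⟩
  intro F t R₀ r a b e v hF hR ha hb he hc hv hL h0 h1 x₀ hx₀
  refine le_of_forall_pos_le_add fun ε hε => ?_
  obtain ⟨A, hA⟩ : ∃ A, A = a + e + ε / Real.exp (γ * ‖x₀‖ ^ 2) := ⟨_, rfl⟩
  obtain ⟨B, hB⟩ : ∃ B, B = b * Real.exp (-r ^ 2 / 5) := ⟨_, rfl⟩
  have hA0 : a + e < A := hA ▸ lt_add_of_pos_right _ (by positivity)
  have hA1 : 0 < A := by linarith
  have hB0 : 0 ≤ B := by rw [hB]; positivity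
  have hWA := bar_ge hγ hA1.le hB0
  have hW0 : ∀ q, 0 < bar γ A B q := fun q => hA1.trans_le (hWA q)
  have hBe : ∀ x : E, bar γ A B (x, t) =
      A * Real.exp (γ * ‖x‖ ^ 2) + b * Real.exp ((‖x‖ ^ 2 - r ^ 2) / 5) := fun x => by
    rw [bar, hB, mul_assoc, ← Real.exp_add]; congr 3; simp only [sq]; ring
  suffices h : ∀ σ : ℝ, σ * σ = 1 → (∀ y, σ * y ≤ |y|) → σ * v (x₀, t) ≤ bar γ A B (x₀, t) by
    have e1 : bar γ A B (x₀, t) = (a + e) * Real.exp (γ * ‖x₀‖ ^ 2) +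
        b * Real.exp ((‖x₀‖ ^ 2 - r ^ 2) / 5) + ε := by
      rw [hBe, hA, add_mul (a + e), div_mul_cancel₀ _ (Real.exp_pos _).ne']; ring
    rw [← e1, abs_le]
    exact ⟨by linarith [h (-1) (by norm_num) fun y => by linarith [neg_abs_le y]],
      by linarith [h 1 (by norm_num) fun y => by linarith [le_abs_self y]]⟩
  intro σ hσ hσ'
  by_contra hcon
  push Not at hcon
  obtain ⟨x, hx, hm⟩ := hc.exists_isMaxOn ⟨x₀, hx₀⟩
    (f := fun y => σ * v (y, t) / bar γ A B (y, t))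
    ((continuousOn_const.mul (contOn (fun _ h => h.1) fun y hy => (hv y hy).continuousWithinAt)).div
      ((bar_cd γ A B).continuous.comp (by fun_prop)).continuousOn fun y _ => (hW0 _).ne')
  obtain ⟨l, hl⟩ : ∃ l, l = σ * v (x, t) / bar γ A B (x, t) := ⟨_, rfl⟩
  have hm' : ∀ y ∈ An F t R₀ r, σ * v (y, t) ≤ l * bar γ A B (y, t) := fun y hy =>
    (div_le_iff₀ (hW0 (y, t))).1 (hl ▸ hm hy)
  have hl1 : 1 < l := lt_of_mul_lt_mul_right (by linarith [hm' x₀ hx₀]) (hW0 (x₀, t)).le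
  have hlx : σ * v (x, t) = l * bar γ A B (x, t) := by rw [hl, div_mul_cancel₀ _ (hW0 _).ne']
  have hlt : bar γ A B (x, t) < |v (x, t)| :=
    (lt_mul_of_one_lt_left (hW0 _) hl1).trans_le (hlx ▸ hσ' _)
  have i1 : R₀ < ‖x‖ := hx.2.1.lt_of_ne fun h => by linarith [h0 x hx.1 h.symm, hWA (x, t)]
  have i2 : ‖x‖ < r := hx.2.2.lt_of_ne fun h => by
    have h2 := hBe x
    rw [h, sub_self, zero_div, Real.exp_zero, mul_one] at h2
    have : 0 < A * Real.exp (γ * r ^ 2) := by positivity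
    linarith [h1 x hx.1 h]
  obtain ⟨k1, k2, k3⟩ := hL x hx.1 i1 i2
  refine no_touch (p := (x, t)) (A := l * A) (B := l * B) hF hx.1 hK hγ hγ' (by positivity)
    (by positivity) (by linarith [lt_mul_of_one_lt_left hA1 hl1]) hσ (hR.trans i1.le) k1 k2
    (hv x hx) k3 (by rw [bar_mul, hlx]) ?_
  have m0 := locMax (F := F) (u := fun q => σ * v q - bar γ (l * A) (l * B) q) (r₂ := r) i1
    fun y hy => by simp only [bar_mul]; linarith [hm' y hy]
  have : ∀ᶠ q : ST in 𝓝 (x, t), ‖q.1‖ < r :=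
    continuous_fst.norm.continuousAt.eventually (gt_mem_nhds i2)
  refine m0.filter_mono (le_of_eq ?_)
  exact (nhdsWithin_inter_of_mem' (mem_nhdsWithin_of_mem_nhds (this.mono fun _ h => h.le))).symm

/-- one-sided maximum: the derivative along `x^T` is nonnegative -/
theorem max_drift (hF : F.Reg) (hp : p ∈ F.M) {u : ST → ℝ} (hu : ContDiffWithinAt ℝ 1 u F.M p)
    (hτ : F.xn 0 p ^ 2 < ‖p.1‖ ^ 2)
    (hm : IsLocalMaxOn u (F.M ∩ {q | q.2 = p.2} ∩ {q | ‖q.1‖ ≤ ‖p.1‖}) p) :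
    0 ≤ ∑ a, p.1 a * F.D a u p := by
  obtain ⟨π, hπ⟩ := exists_ret hF hp
  set w : ST := (F.PL p p.1, 0) with hw
  have key : ∀ f : ST → ℝ, ContDiffWithinAt ℝ 1 f F.M p →
      HasDerivAt (fun s : ℝ => f (π (p + s • w))) (∑ a, p.1 a * F.D a f p) 0 := fun f hf => by
    have hg : DifferentiableAt ℝ (f ∘ π) p := (hπ.comp_sm (m := 1) hf).differentiableAt (by simp)
    have hd : HasDerivAt (fun s : ℝ => (f ∘ π) (p + s • w)) (fderiv ℝ (f ∘ π) p w) 0 :=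
      HasFDerivAt.comp_hasDerivAt 0 (f := fun s : ℝ => p + s • w)
        (by simpa using hg.hasFDerivAt) (line_deriv p w 0)
    rwa [← td_eq hF hp hg (hπ.comp_eq f) (tn_PL hF hp _), Mv.td_PL] at hd
  have d1 := key sq (cd_sq.of_le (by norm_cast)).contDiffAt.contDiffWithinAt
  rw [drift_sq hF hp] at d1
  have d2 : ∀ᶠ s in 𝓝[<] (0 : ℝ), sq (π (p + s • w)) ≤ sq p := by
    have h1 := (hasDerivAt_iff_tendsto_slope_zero.1 d1).mono_left (nhdsLT_le_nhdsNE 0)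
    filter_upwards [h1.eventually (lt_mem_nhds (show (0 : ℝ) < _ by linarith)),
      self_mem_nhdsWithin] with s a b
    simp only [zero_add, zero_smul, add_zero, hπ.fix, smul_eq_mul] at a
    have b' : s⁻¹ < 0 := inv_lt_zero.2 b
    nlinarith
  have t : Tendsto (fun s : ℝ => π (p + s • w)) (𝓝[<] 0)
      (𝓝[F.M ∩ {q | q.2 = p.2} ∩ {q | ‖q.1‖ ≤ ‖p.1‖}] p) := by
    refine tendsto_nhdsWithin_iff.2
      ⟨((hπ.tendsto.mono_right nhdsWithin_le_nhds).comp (line_tendsto p _)).mono_left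
        nhdsWithin_le_nhds, ?_⟩
    filter_upwards [nhdsWithin_le_nhds ((line_tendsto p w).eventually hπ.ev), d2] with s hs h2
    exact ⟨⟨hs.1, hs.2.1.trans (by simp [hw])⟩, (sq_le_sq₀ (norm_nonneg _) (norm_nonneg _)).1 h2⟩
  have h1 := (hasDerivAt_iff_tendsto_slope_zero.1 (key u hu)).mono_left (nhdsLT_le_nhdsNE 0)
  refine ge_of_tendsto h1 ?_
  filter_upwards [t.eventually hm, self_mem_nhdsWithin] with s a b
  simp only [zero_add, zero_smul, add_zero, hπ.fix, smul_eq_mul]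
  have b' : s⁻¹ < 0 := inv_lt_zero.2 b
  nlinarith

/-- S6: first order extension -/
theorem s6 (hF : F.Reg) {t r₁ r₂ K L a : ℝ} {u : ST → ℝ} (hL : 0 < L) (hK : 2 * K ≤ r₁)
    (hr : 0 < r₁) (hc : IsCompact (An F t r₁ r₂))
    (hu : ∀ x ∈ An F t r₁ r₂, ContDiffWithinAt ℝ 1 u F.M (x, t))
    (hn : ∀ x ∈ An F t r₁ r₂, |F.xn 0 (x, t)| ≤ K ∧ ∑ i, x i * F.D i u (x, t) ≤ L)
    (h0 : ∀ x ∈ F.sl t, ‖x‖ = r₁ → u (x, t) ≤ a) :
    ∀ x ∈ An F t r₁ r₂, u (x, t) ≤ a + L * (r₂ ^ 2 - r₁ ^ 2) / r₁ ^ 2 := by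
  intro x₀ hx₀
  set κ := L / r₁ ^ 2 with hκ
  have hκ0 : 0 < κ := by positivity
  obtain ⟨x, hx, hm⟩ := hc.exists_isMaxOn ⟨x₀, hx₀⟩ (f := fun y => u (y, t) - κ * sq (y, t))
    ((contOn (fun _ h => h.1) fun y hy => (hu y hy).continuousWithinAt).sub
      (continuous_const.mul (cd_sq.continuous.comp (by fun_prop))).continuousOn)
  have i1 : ‖x‖ = r₁ := by
    by_contra hne
    have i2 : r₁ < ‖x‖ := hx.2.1.lt_of_ne (Ne.symm hne)
    obtain ⟨k1, k2⟩ := hn x hx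
    have k3 := sq_le_sq' (neg_le_of_abs_le k1) (le_of_abs_le k1)
    have k0 : 0 ≤ K := (abs_nonneg _).trans k1
    have k4 : 4 * K ^ 2 ≤ r₁ ^ 2 := by nlinarith
    have k5 : r₁ ^ 2 < ‖x‖ ^ 2 := by nlinarith
    have hs : ContDiffWithinAt ℝ 1 (fun q => κ * sq q) F.M (x, t) :=
      (contDiff_const.mul (cd_sq.of_le (by norm_cast))).contDiffAt.contDiffWithinAt
    have m := max_drift hF hx.1 (u := fun q => u q - κ * sq q) ((hu x hx).sub hs)
      (by simp only; nlinarith)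
      ((locMax (u := fun q => u q - κ * sq q) i2 fun y hy => hm hy).on_subset
        fun q hq => ⟨hq.1, le_trans hq.2 hx.2.2⟩)
    have e1 : ∀ i, F.D i (fun q => u q - κ * sq q) (x, t) =
        F.D i u (x, t) - κ * F.D i sq (x, t) := fun i => by
      rw [← hF.D_const_mul hx.1 κ cd_sq.contDiffOn i]
      have := (((hu x hx).differentiableWithinAt (by simp)).hasFDerivWithinAt.sub
        (hs.differentiableWithinAt (by simp)).hasFDerivWithinAt)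
      exact hF.td_eq hx.1 this (hF.tg_PL hx.1 _)
    have e2 := drift_sq hF hx.1
    have e3 : κ * r₁ ^ 2 = L := div_mul_cancel₀ _ (by positivity)
    simp only [e1, Fin.sum_univ_three] at m e2 k2
    nlinarith
  have h1 := hm hx₀
  have h2 := h0 x hx.1 i1
  have h3 : ‖x₀‖ ^ 2 ≤ r₂ ^ 2 := by nlinarith [hx₀.2.2, norm_nonneg x₀]
  simp only [mem_ofPred_eq, sq, i1] at h1
  rw [mul_div_right_comm, ← hκ]
  nlinarith

end Crest.Agent.N250.Bar

end
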