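import Crest.Agent.N250.Tb.GR
import Crest.Agent.N250.A.Good

/-!
# Row 250, block R (helper59): S1, a surface close to a model is flat at a fixed scale
-/

set_option autoImplicit false
open MeasureTheory Set Filter Topology
open scoped ContDiff InnerProductSpace
open Crest.GeometryTopology.MCF

noncomputable section

namespace Crest.Agent.N250.S1

open Tb

theorem reach_le {F : Mv} {x : E} {t ρ ρ' : ℝ} (hF : F.Reg) (hx : x ∈ F.sl t)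
    (h : F.Reach (x, t) ρ) (h0 : 0 < ρ') (h1 : ρ' ≤ ρ) : F.Reach (x, t) ρ' :=
  reach_of_fed (hF.norm_n (p := (x, t)) hx) h0 fun z hz =>
    le_trans (by gcongr) (fed (hF.norm_n (p := (x, t)) hx) (h0.trans_le h1) h hz)

/-- two unit vectors that are almost parallel -/
theorem inner_le {n ν w : E} {e : ℝ} (hn : ‖n‖ = 1) (hν : ‖ν‖ = 1) (he : 0 ≤ e)
    (h : 1 - ⟪n, ν⟫_ℝ ^ 2 ≤ e ^ 2) : |⟪w, n⟫_ℝ| ≤ |⟪ν, w⟫_ℝ| + e * ‖w‖ := by
  have h1 : ‖n - ⟪n, ν⟫_ℝ • ν‖ ≤ e := by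
    refine (sq_le_sq₀ (norm_nonneg _) he).1 ?_
    rw [norm_sub_smul_sq _ _ hν, hn, real_inner_comm n ν]
    linarith
  have h2 : |⟪n, ν⟫_ℝ| ≤ 1 := by simpa [hn, hν] using abs_real_inner_le_norm n ν
  have h3 : ⟪w, n⟫_ℝ = ⟪n, ν⟫_ℝ * ⟪ν, w⟫_ℝ + ⟪n - ⟪n, ν⟫_ℝ • ν, w⟫_ℝ := by
    rw [inner_sub_left, real_inner_smul_left, real_inner_comm w n]; ring
  rw [h3]
  refine (abs_add_le _ _).trans (add_le_add ?_ ?_)
  · rw [abs_mul]; exact mul_le_of_le_one_left (abs_nonneg _) h2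
  · exact (abs_real_inner_le_norm _ _).trans (by gcongr)

/-- S1 -/
theorem s1 {η₀ ρ₀ : ℝ} (hη : 0 < η₀) (hρ : 0 < ρ₀) : ∃ a₀, 0 < a₀ ∧ a₀ ≤ 1 ∧ ∀ c, 0 < c →
    ∃ δ, 0 < δ ∧ ∀ (S N : Mv) (t t' : ℝ) (U V : Set E), S.Reg →
      (∀ y ∈ S.sl t, y ∈ V → S.Reach (y, t) ρ₀) → N.Reg → IsOpen U →
      (∀ y ∈ N.sl t', y ∈ U → N.Reach (y, t') c) →
      (∀ y ∈ closure (N.sl t'), y ∈ U → y ∈ N.sl t') →
      (∀ w ∈ N.sl t', w ∈ U → w ∈ tube S t V ρ₀ ∧ |sd S t w| ≤ δ) →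
      ∀ x ∈ N.sl t', Metric.closedBall x 1 ⊆ U → A.Cone N (x, t') η₀ a₀ := by
  obtain ⟨η, hη0, hη1, hη2⟩ : ∃ η, 0 < η ∧ η ≤ 1 ∧ η ≤ η₀ :=
    ⟨min 1 η₀, lt_min one_pos hη, min_le_left _ _, min_le_right _ _⟩
  refine ⟨min 1 (η * ρ₀ / 6), lt_min one_pos (by positivity), min_le_left _ _, fun c hc => ?_⟩
  obtain ⟨ρ, h0, h1, h2⟩ : ∃ ρ, 0 < ρ ∧ ρ ≤ c ∧ ρ ≤ ρ₀ :=
    ⟨min c ρ₀, lt_min hc hρ, min_le_left _ _, min_le_right _ _⟩
  obtain ⟨δ, d0, d1, d2⟩ : ∃ δ, 0 < δ ∧ δ ≤ ρ * η ^ 2 / 225 ∧ δ ≤ 1 / (4 * ρ) :=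
    ⟨min _ _, lt_min (by positivity) (by positivity), min_le_left _ _, min_le_right _ _⟩
  refine ⟨δ, d0, fun S N t t' U V hS hRS hN hU hR hC hT x hx hB => ?_⟩
  refine A.Cone.mono (η := η) (fun y hy hl => ?_) hη2 le_rfl
  simp only at hy hl ⊢
  have hxU := hB (Metric.mem_closedBall_self zero_le_one)
  have hR' : ∀ y ∈ N.sl t', y ∈ U → N.Reach (y, t') ρ := fun y a b => reach_le hN a (hR y a b) h0 h1
  have η2 : η ^ 2 ≤ η := by nlinarith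
  have d3 : δ ≤ ρ * η / 225 := d1.trans (by gcongr)
  by_cases hs : ‖y - x‖ ≤ 2 * ρ * η
  · have := fed (hN.norm_n (p := (x, t')) hx) h0 (hR' x hx hxU) hy
    rw [real_inner_comm]
    refine le_of_mul_le_mul_left (this.trans ?_) (show 0 < 2 * ρ by positivity)
    nlinarith [norm_nonneg (y - x)]
  push Not at hs
  have hyU : y ∈ U := hB (by
    rw [Metric.mem_closedBall, dist_eq_norm]; exact hl.le.trans (min_le_left _ _))
  obtain ⟨tx, sx⟩ := hT x hx hxU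
  obtain ⟨ty, sy⟩ := hT y hy hyU
  have hq : 2 * √(δ * ρ) ≤ 1 := by
    have : √(δ * ρ) ≤ 1 / 2 := Real.sqrt_le_iff.2 ⟨by norm_num, by
      rw [le_div_iff₀ (by positivity)] at d2; linarith⟩
    linarith
  have hB' := (Metric.closedBall_subset_closedBall hq).trans hB
  have hn := hS.norm_n (p := (_, t)) (pr_mem hS hRS tx)
  have g := gr hS hN hU hR' hC hx d0 (by nlinarith) hB'
    (fun w a b => ⟨_, pr_mem hS hRS (hT w a (hB' b)).1,
      (dist_pr hS hRS (hT w a (hB' b)).1).trans_le (hT w a (hB' b)).2⟩)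
    (pr_mem hS hRS tx) (reach_le hS (pr_mem hS hRS tx) (pr_reach hS hRS tx) h0 h2) sx
    (dec hS hRS tx)
  have g1 := inner_le (w := y - x) (e := η / 3) (hN.norm_n (p := (x, t')) hx) hn (by positivity)
    (g.trans (by rw [div_le_iff₀ h0]; linarith))
  have f := fed hn hρ (pr_reach hS hRS tx) (pr_mem hS hRS ty)
  have ex : ‖x - pr S t x‖ ≤ δ := by rw [← dist_eq_norm, dist_pr hS hRS tx]; exact sx
  have ey : ‖y - pr S t y‖ ≤ δ := by rw [← dist_eq_norm, dist_pr hS hRS ty]; exact sy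
  have e1 : ‖(y - x) - (pr S t y - pr S t x)‖ ≤ 2 * δ := by
    rw [show (y - x) - (pr S t y - pr S t x) = (y - pr S t y) - (x - pr S t x) by abel]
    linarith [norm_sub_le (y - pr S t y) (x - pr S t x)]
  have e2 : ‖pr S t y - pr S t x‖ ≤ 2 * ‖y - x‖ := by
    have := norm_sub_norm_le (pr S t y - pr S t x) (y - x)
    rw [norm_sub_rev] at e1
    nlinarith [mul_pos h0 hη0]
  have e3 : |⟪S.n (pr S t x, t), y - x⟫_ℝ| ≤
      |⟪S.n (pr S t x, t), pr S t y - pr S t x⟫_ℝ| + 2 * δ := by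
    have := abs_real_inner_le_norm (S.n (pr S t x, t)) ((y - x) - (pr S t y - pr S t x))
    rw [hn, one_mul, inner_sub_right] at this
    linarith [abs_sub_abs_le_abs_sub ⟪S.n (pr S t x, t), y - x⟫_ℝ
      ⟪S.n (pr S t x, t), pr S t y - pr S t x⟫_ℝ]
  have e4 : |⟪S.n (pr S t x, t), pr S t y - pr S t x⟫_ℝ| ≤ η / 3 * ‖y - x‖ := by
    refine le_of_mul_le_mul_left (f.trans ?_) (show 0 < 2 * ρ₀ by positivity)
    have h3 := hl.le.trans (min_le_right _ _)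
    have h4 := pow_le_pow_left₀ (norm_nonneg _) e2 2
    nlinarith [mul_le_mul_of_nonneg_right h3 (norm_nonneg (y - x))]
  have e5 : 2 * δ ≤ η / 3 * ‖y - x‖ := by
    nlinarith [mul_le_mul_of_nonneg_left hs.le hη0.le, mul_pos h0 (pow_pos hη0 2)]
  linarith

end Crest.Agent.N250.S1

end
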