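import Mathlib
/-! Row 250, block R3: the discrete Łojasiewicz argument with a memory term, and the abstract
finite length theorem (continuity argument).  Pure real analysis. (helper63) -/
set_option autoImplicit false
noncomputable section
namespace Crest.Agent.N250.R
open Set Finset Filter Topology

/-- one step: `x ≤ K (x-y)^q` gives `√(x-y) ≤ K' (x^β - y^β)`, `β = 1 - 1/(2q)`. -/
theorem disc_step {x y K q : ℝ} (hq : 1/2 < q) (hK : 0 < K) (hy : 0 ≤ y) (hxy : y ≤ x)
    (h : x ≤ K * (x - y) ^ q) :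
    √(x - y) ≤ K ^ (1/(2*q)) / (1 - 1/(2*q)) * (x ^ (1 - 1/(2*q)) - y ^ (1 - 1/(2*q))) := by
  set g := 1/(2*q) with hg
  have hq0 : 0 < q := by linarith
  have hg0 : 0 < g := by positivity
  have hg1 : g < 1 := by rw [hg, div_lt_one (by positivity)]; linarith
  have hgq : q * g = 1/2 := by rw [hg]; field_simp
  rcases hxy.eq_or_lt with rfl | hlt
  · simp
  have hx : 0 < x := by linarith
  have hD : 0 < x - y := by linarith
  have h1 : (y/x) ^ (1-g) ≤ 1 + (1-g) * (y/x - 1) := by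
    have := rpow_one_add_le_one_add_mul_self (s := y/x - 1) (p := 1-g)
      (by have : 0 ≤ y/x := by positivity
          linarith) (by linarith) (by linarith)
    simpa using this
  have hxb : 0 < x ^ (1-g) := Real.rpow_pos_of_pos hx _
  have hxg : 0 < x ^ g := Real.rpow_pos_of_pos hx _
  have hmul : x ^ (1-g) * x ^ g = x := by
    rw [← Real.rpow_add hx]; simp
  rw [Real.div_rpow hy hx.le, div_le_iff₀ hxb] at h1
  have h2 : (1-g) * (x - y) ≤ (x ^ (1-g) - y ^ (1-g)) * x ^ g := by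
    have e : (1 + (1-g) * (y/x - 1)) * x ^ (1-g) * x ^ g = x - (1-g) * (x-y) := by
      rw [mul_assoc, hmul]; field_simp; ring
    nlinarith [mul_le_mul_of_nonneg_right h1 hxg.le]
  have h3 : x ^ g ≤ K ^ g * √(x - y) := by
    calc x ^ g ≤ (K * (x-y)^q) ^ g := Real.rpow_le_rpow hx.le h hg0.le
      _ = K ^ g * √(x - y) := by
        rw [Real.mul_rpow hK.le (by positivity), ← Real.rpow_mul hD.le, hgq, Real.sqrt_eq_rpow]
  have hs : 0 < √(x - y) := Real.sqrt_pos.2 hD
  have hss : √(x-y) * √(x-y) = x - y := Real.mul_self_sqrt hD.le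
  have h4 : 0 ≤ x ^ (1-g) - y ^ (1-g) := by
    have := Real.rpow_le_rpow hy hxy (show 0 ≤ 1 - g by linarith); linarith
  have h5 : (1-g) * (√(x-y) * √(x-y)) ≤ (K ^ g * (x ^ (1-g) - y ^ (1-g))) * √(x-y) := by
    rw [hss]; nlinarith [mul_le_mul_of_nonneg_left h3 h4]
  have h6 : (1-g) * √(x-y) ≤ K ^ g * (x ^ (1-g) - y ^ (1-g)) := by
    rw [← mul_assoc] at h5; exact le_of_mul_le_mul_right h5 hs
  rw [div_mul_eq_mul_div, le_div_iff₀ (by linarith)]; linarith

/-- discrete Łojasiewicz with memory `w`; constants independent of `n` and of the sequences. -/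
theorem disc {C c q : ℝ} (hC : 0 ≤ C) (hc : 0 ≤ c) (hq : 1/2 < q) (hq1 : q ≤ 1) :
    ∃ K β : ℝ, 0 < K ∧ 0 < β ∧ ∀ (E w : ℕ → ℝ) (n : ℕ), (∀ k ≤ n, 0 ≤ E k) → (∀ k ≤ n, 0 ≤ w k) →
      (∀ k < n, E (k+1) ≤ E k) → (∀ k < n, w (k+1) ≤ w k / 4 + c * (E k - E (k+1))) →
      (∀ k < n, E (k+1) ≤ C * (E k - E (k+1) + w k) ^ q) → (c+1) * E 0 + w 0 ≤ 1 →
      ∑ k ∈ range n, √(E k - E (k+1)) ≤ K * ((c+1) * E 0 + w 0) ^ β := by
  have hq0 : 0 < q := by linarith
  have hg1 : 1/(2*q) < 1 := by rw [div_lt_one (by positivity)]; linarith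
  set K0 := ((c+1) * C + c + 1) * 2 + 1 with hK0
  have hK0p : 0 < K0 := by positivity
  refine ⟨K0 ^ (1/(2*q)) / (1 - 1/(2*q)), 1 - 1/(2*q), by
    have : 0 < 1 - 1/(2*q) := by linarith
    positivity, by linarith, ?_⟩
  intro E w n hE hw hm hwr hL h0
  set G : ℕ → ℝ := fun k => (c+1) * E k + w k with hG
  have hG0 : ∀ k ≤ n, 0 ≤ G k := fun k hk => by
    have := hE k hk; have := hw k hk; simp only [hG]; positivity
  have hd : ∀ k < n, E k - E (k+1) + 3/4 * w k ≤ G k - G (k+1) := fun k hk => by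
    have := hwr k hk; simp only [hG]; nlinarith
  have hG1 : ∀ k ≤ n, G k ≤ 1 := by
    intro k; induction k with
    | zero => intro _; exact h0
    | succ k ih =>
      intro hk
      have := ih (by omega); have := hd k (by omega); have := hm k (by omega)
      have := hw k (by omega); linarith
  have key : ∀ k < n, √(E k - E (k+1)) ≤ K0 ^ (1/(2*q)) / (1 - 1/(2*q)) *
      (G k ^ (1 - 1/(2*q)) - G (k+1) ^ (1 - 1/(2*q))) := fun k hk => by
    have a1 := hd k hk; have a2 := hm k hk; have a3 := hw k hk.le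
    have a4 := hG0 (k+1) hk; have a5 := hG1 k hk.le; have a6 := hwr k hk
    have a7 := hL k hk
    set Δ := G k - G (k+1) with hΔ
    have hΔ0 : 0 ≤ Δ := by linarith
    have hΔ1 : Δ ≤ 1 := by linarith
    have b1 : Δ ≤ Δ ^ q := by
      calc Δ = Δ ^ (1:ℝ) := by simp
        _ ≤ Δ ^ q := Real.rpow_le_rpow_of_exponent_ge' hΔ0 hΔ1 hq0.le hq1
    have b2 : (E k - E (k+1) + w k) ^ q ≤ 2 * Δ ^ q := by
      calc (E k - E (k+1) + w k) ^ q ≤ (2 * Δ) ^ q :=
            Real.rpow_le_rpow (by linarith) (by linarith) hq0.le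
        _ = 2 ^ q * Δ ^ q := Real.mul_rpow (by norm_num) hΔ0
        _ ≤ 2 * Δ ^ q := by
          have : (2:ℝ) ^ q ≤ 2 ^ (1:ℝ) := Real.rpow_le_rpow_of_exponent_le (by norm_num) hq1
          have h2 : 0 ≤ Δ ^ q := by positivity
          rw [Real.rpow_one] at this; nlinarith
    have b3 : G k ≤ K0 * (G k - G (k+1)) ^ q := by
      have h2 : 0 ≤ Δ ^ q := by positivity
      have e1 : G (k+1) = (c+1) * E (k+1) + w (k+1) := rfl
      have e2 : E (k+1) ≤ C * (2 * Δ ^ q) := a7.trans (mul_le_mul_of_nonneg_left b2 hC)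
      have e3 : w (k+1) ≤ (c+1) * Δ := by nlinarith
      have e4 : (c+1) * E (k+1) ≤ (c+1) * (C * (2 * Δ ^ q)) :=
        mul_le_mul_of_nonneg_left e2 (by linarith)
      have e5 : (c+1) * Δ ≤ (c+1) * Δ ^ q := mul_le_mul_of_nonneg_left b1 (by linarith)
      rw [← hΔ, hK0]; nlinarith
    refine le_trans (Real.sqrt_le_sqrt (by linarith)) (disc_step hq hK0p a4 (by linarith) b3)
  calc ∑ k ∈ range n, √(E k - E (k+1))
      ≤ ∑ k ∈ range n, K0 ^ (1/(2*q)) / (1 - 1/(2*q)) *
        (G k ^ (1 - 1/(2*q)) - G (k+1) ^ (1 - 1/(2*q))) :=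
        sum_le_sum fun k hk => key k (mem_range.1 hk)
    _ = K0 ^ (1/(2*q)) / (1 - 1/(2*q)) * (G 0 ^ (1 - 1/(2*q)) - G n ^ (1 - 1/(2*q))) := by
        rw [← mul_sum, Finset.sum_range_sub' (fun k => G k ^ (1 - 1/(2*q)))]
    _ ≤ _ := by
        have : 0 < 1 - 1/(2*q) := by linarith
        have h1 : 0 ≤ G n ^ (1 - 1/(2*q)) := Real.rpow_nonneg (hG0 n le_rfl) _
        exact mul_le_mul_of_nonneg_left (by simp only [hG] at h1 ⊢; linarith) (by positivity)

/-- `E' = -p²` makes `E` non-increasing. -/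
theorem en_anti {E p : ℝ → ℝ} {a : ℝ} (hE : ∀ t, a ≤ t → HasDerivAt E (-(p t)^2) t)
    {s t : ℝ} (hs : a ≤ s) (hst : s ≤ t) : E t ≤ E s := by
  have : AntitoneOn E (Ici a) := by
    refine antitoneOn_of_deriv_nonpos (convex_Ici a)
      (fun x hx => (hE x hx).continuousAt.continuousWithinAt)
      (fun x hx => (hE x (interior_subset hx)).differentiableAt.differentiableWithinAt) ?_
    intro x hx; rw [(hE x (interior_subset hx)).deriv]; nlinarith [sq_nonneg (p x)]
  exact this hs (hs.trans hst) hst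

/-- Cauchy–Schwarz without integrals: `|I'| ≤ |p|`, `E' = -p²`. -/
theorem len_le {E p I : ℝ → ℝ} {a : ℝ} (hE : ∀ t, a ≤ t → HasDerivAt E (-(p t)^2) t)
    (hI : ∀ t, a ≤ t → ∃ d, HasDerivAt I d t ∧ |d| ≤ |p t|) {s t : ℝ} (hs : a ≤ s) (hst : s ≤ t) :
    |I t - I s| ≤ √((t - s) * (E s - E t)) := by
  have hD : 0 ≤ E s - E t := sub_nonneg.2 (en_anti hE hs hst)
  have main : ∀ σ : ℝ, |σ| = 1 → ∀ l : ℝ, 0 < l →
      σ * (I t - I s) ≤ (l * (E s - E t) + (t - s) / l) / 2 := by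
    intro σ hσ l hl
    have hd : ∀ x, a ≤ x → ∃ d, HasDerivAt (fun x => σ * I x + l/2 * E x - x/(2*l)) d x ∧ d ≤ 0 := by
      intro x hx
      obtain ⟨d, h1, h2⟩ := hI x hx
      refine ⟨_, ((h1.const_mul σ).add ((hE x hx).const_mul (l/2))).sub
        ((hasDerivAt_id x).div_const (2*l)), ?_⟩
      have h3 : σ * d ≤ |p x| := by
        refine (le_abs_self _).trans ?_; rw [abs_mul, hσ, one_mul]; exact h2
      have h4 : |p x| ≤ l/2 * (p x)^2 + 1/(2*l) := by
        rw [← sq_abs (p x)]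
        have : l/2 * |p x|^2 + 1/(2*l) - |p x| = (l * |p x| - 1)^2/(2*l) := by field_simp; ring
        have h5 : 0 ≤ (l * |p x| - 1)^2/(2*l) := by positivity
        linarith
      linarith
    have : AntitoneOn (fun x => σ * I x + l/2 * E x - x/(2*l)) (Ici a) := by
      refine antitoneOn_of_deriv_nonpos (convex_Ici a)
        (fun x hx => (hd x hx).choose_spec.1.continuousAt.continuousWithinAt)
        (fun x hx =>
          (hd x (interior_subset hx)).choose_spec.1.differentiableAt.differentiableWithinAt) ?_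
      intro x hx
      obtain ⟨d, h1, h2⟩ := hd x (interior_subset hx)
      rw [h1.deriv]; exact h2
    have h := this hs (hs.trans hst) hst
    simp only at h
    have e : (l * (E s - E t) + (t - s) / l) / 2 = l/2 * E s - l/2 * E t + (t/(2*l) - s/(2*l)) := by
      field_simp
    rw [e]; linarith
  have m2 : ∀ l : ℝ, 0 < l → |I t - I s| ≤ (l * (E s - E t) + (t - s) / l) / 2 := fun l hl => by
    have h1 := main 1 (by simp) l hl
    have h2 := main (-1) (by simp) l hl
    rw [abs_le]; constructor <;> linarith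
  refine Real.le_sqrt_of_sq_le ?_
  by_contra hc
  push Not at hc
  set A := |I t - I s| with hA
  have hA0 : 0 < A := by
    rcases (abs_nonneg (I t - I s)).eq_or_lt with h | h
    · rw [← hA] at h; rw [← h] at hc; nlinarith [mul_nonneg (sub_nonneg.2 hst) hD]
    · exact h
  rcases hst.eq_or_lt with rfl | hlt
  · simp [hA] at hA0
  have hts : 0 < t - s := by linarith
  have h := m2 ((t - s) / A) (by positivity)
  have e : ((t - s) / A * (E s - E t) + (t - s) / ((t - s) / A)) / 2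
      = ((t - s) * (E s - E t) / A + A) / 2 := by field_simp
  rw [e] at h
  have : (t - s) * (E s - E t) / A < A := by rw [div_lt_iff₀ hA0]; nlinarith
  linarith

/-- mean value: a time in `(s, s+h)` where `h p² = E s - E (s+h)`. -/
theorem mean_time {E p : ℝ → ℝ} {a h : ℝ} (hE : ∀ t, a ≤ t → HasDerivAt E (-(p t)^2) t)
    (hh : 0 < h) {s : ℝ} (hs : a ≤ s) : ∃ τ ∈ Icc s (s + h), h * (p τ)^2 = E s - E (s + h) := by
  obtain ⟨τ, h1, h2⟩ := exists_hasDerivAt_eq_slope E (fun t => -(p t)^2) (show s < s + h by linarith)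
    (fun x hx => (hE x (hs.trans hx.1)).continuousAt.continuousWithinAt)
    (fun x hx => hE x (hs.trans hx.1.le))
  refine ⟨τ, Ioo_subset_Icc_self h1, ?_⟩
  rw [add_sub_cancel_left, eq_div_iff hh.ne'] at h2; linarith

/-- **Abstract finite length theorem** (continuity argument).  `E` = energy minus its limit,
`p` = norm of the gradient, `I i` = test integrals with targets `J i`, `Good t w` = "at time `t` the
surface is a small graph on the ball of radius `√(log (1/w) / c)`".  Output: once started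
`η`-close, every function `L` of speed `≤ |p|` moves at most `K η^β` for ever. -/
theorem fin_len_aux {ι : Type*} {C c q h ε : ℝ} (hC : 0 ≤ C) (hc : 0 ≤ c) (hq : 1/2 < q)
    (hq1 : q ≤ 1) (hh : 0 < h) (hε : 0 < ε) : ∃ K β η₀ : ℝ, 0 < K ∧ 0 < β ∧ 0 < η₀ ∧
    ∀ (E p : ℝ → ℝ) (I : ι → ℝ → ℝ) (J : ι → ℝ) (Good : ℝ → ℝ → Prop) (a η : ℝ),
    (∀ t, a ≤ t → HasDerivAt E (-(p t)^2) t) → (∀ t, a ≤ t → 0 ≤ E t) →
    (∀ i t, a ≤ t → ∃ d, HasDerivAt (I i) d t ∧ |d| ≤ |p t|) →
    (∀ t w, a ≤ t → 0 ≤ w → w ≤ ε → (p t)^2 ≤ ε → Good t w → (∀ i, |I i t - J i| ≤ ε) →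
      E t ≤ C * ((p t)^2 + w) ^ q ∧ ∀ s ∈ Icc (t + h) (t + 3*h), Good s (w/4 + c * (p t)^2)) →
    0 ≤ η → η ≤ η₀ → E a ≤ η → (∀ s ∈ Icc a (a + h), Good s η) → (∀ i, |I i a - J i| ≤ η) →
    ∀ n : ℕ, ∑ k ∈ range n, √(E (a + k * (2*h)) - E (a + (k+1:ℕ) * (2*h))) ≤ K * η ^ β := by
  obtain ⟨K, β, hK, hβ, H⟩ := disc (C := C * (1/h + 1)) (c := c/h) (q := q) (by positivity)
    (by positivity) hq hq1
  set c1 := c/h + 2 with hc1
  have hc1p : 0 < c1 := by positivity
  -- choice of `η₀`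
  have hlim : Tendsto (fun η : ℝ => η + √(2*h) * (K * (c1 * η) ^ β) + √(h * η) + c1 * η + η / h)
      (𝓝 0) (𝓝 0) := by
    have : Continuous (fun η : ℝ => η + √(2*h) * (K * (c1 * η) ^ β) + √(h * η) + c1 * η + η / h) := by
      have := Real.continuous_rpow_const hβ.le
      fun_prop (disch := intros; right; exact hβ.le)
    have h2 := this.tendsto 0
    simpa [Real.zero_rpow hβ.ne'] using h2
  obtain ⟨δ, hδ, hδ2⟩ := Metric.eventually_nhds_iff.1
    (hlim.eventually (gt_mem_nhds (lt_min hε one_pos)))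
  refine ⟨K * c1 ^ β, β, δ/2, by positivity, hβ, by positivity, ?_⟩
  intro E p I J Good a η hE hE0 hI step hη hη0 hEa hG0 hJ
  have hs := hδ2 (y := η) (by rw [Real.dist_eq, sub_zero, abs_of_nonneg hη]; linarith)
  rw [lt_min_iff] at hs
  obtain ⟨hs1, hs2⟩ := hs
  have p1 : 0 ≤ √(2*h) * (K * (c1 * η) ^ β) := by positivity
  have p2 : 0 ≤ √(h * η) := by positivity
  have p3 : 0 ≤ c1 * η := by positivity
  have p4 : 0 ≤ η / h := by positivity
  set A : ℕ → ℝ := fun k => a + k * (2*h) with hA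
  have hA0 : A 0 = a := by simp [hA]
  have hAa : ∀ k, a ≤ A k := fun k => by simp only [hA]; have : 0 ≤ (k:ℝ) * (2*h) := by positivity
                                         linarith
  have hAs : ∀ k, A (k+1) = A k + 2*h := fun k => by simp only [hA]; push_cast; ring
  choose τ hτ hτ2 using fun k => mean_time hE hh (hAa k)
  have hτa : ∀ k, a ≤ τ k := fun k => (hAa k).trans (hτ k).1
  let w : ℕ → ℝ := fun n => Nat.rec η (fun k x => x/4 + c * (p (τ k))^2) n
  have w0 : w 0 = η := rfl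
  have ws : ∀ k, w (k+1) = w k / 4 + c * (p (τ k))^2 := fun k => rfl
  have wn : ∀ k, 0 ≤ w k := by
    intro k; induction k with
    | zero => exact hη
    | succ k ih => rw [ws]; positivity
  have hm : ∀ k, E (A (k+1)) ≤ E (A k) := fun k => en_anti hE (hAa k) (by rw [hAs]; linarith)
  have hpD : ∀ k, (p (τ k))^2 ≤ (E (A k) - E (A (k+1))) / h := fun k => by
    rw [le_div_iff₀ hh, mul_comm, hτ2]
    have := en_anti hE (s := A k + h) (t := A (k+1)) (by linarith [hAa k]) (by rw [hAs]; linarith)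
    linarith
  have hEη : ∀ t, a ≤ t → E t ≤ η := fun t ht => (en_anti hE le_rfl ht).trans hEa
  have hpη : ∀ k, (p (τ k))^2 ≤ η / h := fun k => (hpD k).trans
    (div_le_div_of_nonneg_right (by linarith [hEη _ (hAa k), hE0 _ (hAa (k+1))]) hh.le)
  have wr : ∀ k, w (k+1) ≤ w k / 4 + c/h * (E (A k) - E (A (k+1))) := fun k => by
    rw [ws]; have := mul_le_mul_of_nonneg_left (hpD k) hc
    have e : c * ((E (A k) - E (A (k+1))) / h) = c/h * (E (A k) - E (A (k+1))) := by ring
    linarith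
  have hG : (c/h + 1) * E (A 0) + w 0 ≤ c1 * η := by
    rw [hA0, w0, hc1]; have := mul_le_mul_of_nonneg_left hEa (show 0 ≤ c/h+1 by positivity)
    linarith
  have wle : ∀ k, (c/h+1) * E (A k) + w k ≤ c1 * η := by
    intro k; induction k with
    | zero => exact hG
    | succ k ih => have := wr k; have := wn k; have := hm k; nlinarith
  have wε : ∀ k, w k ≤ ε := fun k => by
    have := wle k; have := mul_nonneg (show 0 ≤ c/h+1 by positivity) (hE0 _ (hAa k)); linarith
  have sumb : ∀ n, (∀ k < n, E (A (k+1)) ≤ C * (1/h+1) * (E (A k) - E (A (k+1)) + w k) ^ q) →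
      ∑ k ∈ range n, √(E (A k) - E (A (k+1))) ≤ K * (c1 * η) ^ β := fun n hn => by
    refine (H (fun k => E (A k)) w n (fun k _ => hE0 _ (hAa k)) (fun k _ => wn k) (fun k _ => hm k)
      (fun k _ => wr k) hn (by linarith)).trans (mul_le_mul_of_nonneg_left ?_ hK.le)
    exact Real.rpow_le_rpow (add_nonneg (mul_nonneg (by positivity) (hE0 _ (hAa 0))) (wn 0)) hG hβ.le
  have lenA : ∀ i n, |I i (A n) - I i a| ≤ √(2*h) * ∑ k ∈ range n, √(E (A k) - E (A (k+1))) := by
    intro i n; induction n with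
    | zero => simp [hA0]
    | succ n ih =>
      have h1 := len_le hE (hI i) (hAa n) (show A n ≤ A (n+1) by rw [hAs]; linarith)
      rw [show A (n+1) - A n = 2*h by rw [hAs]; ring, Real.sqrt_mul (by positivity)] at h1
      rw [sum_range_succ, mul_add]
      have := abs_sub_le (I i (A (n+1))) (I i (A n)) (I i a)
      linarith
  have main : ∀ n, Good (τ n) (w n) ∧
      ∀ k < n, E (A (k+1)) ≤ C * (1/h+1) * (E (A k) - E (A (k+1)) + w k) ^ q := by
    intro n; induction n with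
    | zero => exact ⟨hG0 _ (by have := hτ 0; rwa [hA0] at this), fun k hk => absurd hk (by omega)⟩
    | succ n ih =>
      have hcl : ∀ i, |I i (τ n) - J i| ≤ ε := fun i => by
        have h1 := lenA i n
        have h2 := mul_le_mul_of_nonneg_left (sumb n ih.2) (Real.sqrt_nonneg (2*h))
        have h3 := len_le hE (hI i) (hAa n) (hτ n).1
        have h4 : √((τ n - A n) * (E (A n) - E (τ n))) ≤ √(h * η) := by
          refine Real.sqrt_le_sqrt (mul_le_mul (by linarith [(hτ n).2])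
            (by linarith [hEη _ (hAa n), hE0 _ (hτa n)])
            (sub_nonneg.2 (en_anti hE (hAa n) (hτ n).1)) hh.le)
        have h5 := abs_sub_le (I i (τ n)) (I i (A n)) (J i)
        have h6 := abs_sub_le (I i (A n)) (I i a) (J i)
        linarith [hJ i]
      obtain ⟨s1, s2⟩ := step (τ n) (w n) (hτa n) (wn n) (wε n) (by linarith [hpη n]) ih.1 hcl
      refine ⟨s2 _ ⟨?_, ?_⟩, fun k hk => ?_⟩
      · have := (hτ (n+1)).1; have := (hτ n).2; rw [hAs] at *; linarith
      · have := (hτ (n+1)).2; have := (hτ n).1; rw [hAs] at *; linarith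
      rcases (Nat.lt_succ_iff.1 hk).eq_or_lt with rfl | hk'
      · have e1 : E (A (k+1)) ≤ E (τ k) :=
          en_anti hE (hτa k) (by rw [hAs]; linarith [(hτ k).2])
        have d0 : 0 ≤ E (A k) - E (A (k+1)) + w k := by linarith [hm k, wn k]
        have h1h : 0 ≤ 1/h := by positivity
        have e2 : (p (τ k))^2 + w k ≤ (1/h+1) * (E (A k) - E (A (k+1)) + w k) := by
          have := hpD k
          have e : (E (A k) - E (A (k+1))) / h = 1/h * (E (A k) - E (A (k+1))) := by ring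
          nlinarith [hm k, wn k]
        have e3 : ((p (τ k))^2 + w k) ^ q ≤ (1/h+1) * (E (A k) - E (A (k+1)) + w k) ^ q := by
          refine (Real.rpow_le_rpow (by positivity [wn k]) e2 (by linarith)).trans ?_
          rw [Real.mul_rpow (by positivity) d0]
          refine mul_le_mul_of_nonneg_right ?_ (by positivity)
          calc (1/h+1) ^ q ≤ (1/h+1) ^ (1:ℝ) :=
                Real.rpow_le_rpow_of_exponent_le (by linarith) hq1
            _ = _ := Real.rpow_one _
        have := mul_le_mul_of_nonneg_left e3 hC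
        rw [mul_assoc]; linarith
      · exact ih.2 k hk'
  intro n
  have := sumb n (main n).2
  rw [Real.mul_rpow hc1p.le hη, ← mul_assoc] at this
  exact this

/-- finite length ⇒ every function of speed `≤ B |p|` converges. -/
theorem conv_of_sum {E p L : ℝ → ℝ} {a H B K : ℝ} (hH : 0 < H) (hB : 0 < B)
    (hE : ∀ t, a ≤ t → HasDerivAt E (-(p t)^2) t)
    (hs : ∀ n : ℕ, ∑ k ∈ range n, √(E (a + k * H) - E (a + (k+1:ℕ) * H)) ≤ K)
    (hL : ∀ t, a ≤ t → ∃ d, HasDerivAt L d t ∧ |d| ≤ B * |p t|) :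
    ∃ l, Tendsto L atTop (𝓝 l) := by
  set A : ℕ → ℝ := fun k => a + k * H with hA
  have hAa : ∀ k, a ≤ A k := fun k => by simp only [hA]; have : 0 ≤ (k:ℝ) * H := by positivity
                                         linarith
  have hAs : ∀ k, A (k+1) = A k + H := fun k => by simp only [hA]; push_cast; ring
  have hsum : Summable fun k => B * √H * √(E (A k) - E (A (k+1))) :=
    (summable_of_sum_range_le (fun k => Real.sqrt_nonneg _) hs).mul_left _
  have hI : ∀ t, a ≤ t → ∃ d, HasDerivAt (fun t => L t / B) d t ∧ |d| ≤ |p t| := fun t ht => by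
    obtain ⟨d, h1, h2⟩ := hL t ht
    exact ⟨d / B, h1.div_const B, by rw [abs_div, abs_of_pos hB, div_le_iff₀ hB]; linarith⟩
  have len : ∀ k t, A k ≤ t → t ≤ A (k+1) →
      |L t - L (A k)| ≤ B * √H * √(E (A k) - E (A (k+1))) := fun k t h1 h2 => by
    have h3 := len_le hE hI (hAa k) h1
    rw [← sub_div, abs_div, abs_of_pos hB, div_le_iff₀ hB] at h3
    rw [mul_assoc, ← Real.sqrt_mul hH.le, mul_comm B]
    refine h3.trans (mul_le_mul_of_nonneg_right (Real.sqrt_le_sqrt (mul_le_mul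
      (by rw [hAs] at h2; linarith) ?_ (sub_nonneg.2 (en_anti hE (hAa k) h1)) hH.le)) hB.le)
    linarith [en_anti hE ((hAa k).trans h1) h2]
  have hc : CauchySeq fun k => L (A k) := cauchySeq_of_dist_le_of_summable _ (fun k => by
    rw [dist_comm, Real.dist_eq]; exact len k _ (by rw [hAs]; linarith) le_rfl) hsum
  obtain ⟨l, hl⟩ := cauchySeq_tendsto_of_complete hc
  refine ⟨l, ?_⟩
  have hm : Tendsto (fun t : ℝ => ⌊(t - a)/H⌋₊) atTop atTop :=
    tendsto_nat_floor_atTop.comp ((tendsto_atTop_add_const_right _ (-a) tendsto_id).atTop_div_const hH)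
  have h0 : Tendsto (fun t => L t - L (A ⌊(t - a)/H⌋₊)) atTop (𝓝 0) := by
    refine squeeze_zero_norm' ?_ (hsum.tendsto_atTop_zero.comp hm)
    filter_upwards [eventually_ge_atTop a] with t ht
    have q0 : 0 ≤ (t - a)/H := div_nonneg (by linarith) hH.le
    refine len _ t ?_ ?_
    · have := Nat.floor_le q0; rw [le_div_iff₀ hH] at this; simp only [hA]; linarith
    · have := (Nat.lt_floor_add_one ((t - a)/H)).le; rw [div_le_iff₀ hH] at this
      simp only [hA]; push_cast; linarith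
  simpa using h0.add (hl.comp hm)

/-- **R3.**  `step` = static Łojasiewicz + extension, `start` = `S` is an ω-limit. -/
theorem fin_len {ι : Type*} {C c q h ε a : ℝ} (hC : 0 ≤ C) (hc : 0 ≤ c) (hq : 1/2 < q)
    (hq1 : q ≤ 1) (hh : 0 < h) (hε : 0 < ε)
    {E p : ℝ → ℝ} {I : ι → ℝ → ℝ} {J : ι → ℝ} {Good : ℝ → ℝ → Prop}
    (hE : ∀ t, a ≤ t → HasDerivAt E (-(p t)^2) t) (hE0 : ∀ t, a ≤ t → 0 ≤ E t)
    (hI : ∀ i t, a ≤ t → ∃ d, HasDerivAt (I i) d t ∧ |d| ≤ |p t|)
    (step : ∀ t w, a ≤ t → 0 ≤ w → w ≤ ε → (p t)^2 ≤ ε → Good t w → (∀ i, |I i t - J i| ≤ ε) →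
      E t ≤ C * ((p t)^2 + w) ^ q ∧ ∀ s ∈ Icc (t + h) (t + 3*h), Good s (w/4 + c * (p t)^2))
    (start : ∀ η, 0 < η → ∃ b, a ≤ b ∧ E b ≤ η ∧ (∀ s ∈ Icc b (b + h), Good s η) ∧
      ∀ i, |I i b - J i| ≤ η) :
    (∃ b K, a ≤ b ∧ ∀ n : ℕ, ∑ k ∈ range n, √(E (b + k * (2*h)) - E (b + (k+1:ℕ) * (2*h))) ≤ K) ∧
    ∀ (L : ℝ → ℝ) (B : ℝ), 0 < B → (∀ t, a ≤ t → ∃ d, HasDerivAt L d t ∧ |d| ≤ B * |p t|) →
      ∃ l, Tendsto L atTop (𝓝 l) := by
  obtain ⟨K, β, η, hK, hβ, hη, H⟩ := fin_len_aux (ι := ι) hC hc hq hq1 hh hε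
  obtain ⟨b, hb, h1, h2, h3⟩ := start η hη
  have := H E p I J Good b η (fun t ht => hE t (hb.trans ht)) (fun t ht => hE0 t (hb.trans ht))
    (fun i t ht => hI i t (hb.trans ht)) (fun t w ht => step t w (hb.trans ht)) hη.le le_rfl h1 h2 h3
  exact ⟨⟨b, _, hb, this⟩, fun L B hB hL => conv_of_sum (by positivity) hB
    (fun t ht => hE t (hb.trans ht)) this fun t ht => hL t (hb.trans ht)⟩

end Crest.Agent.N250.R
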