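import Crest.Agent.N250.R.One
import Crest.Agent.N250.Tb.T2

/-!
# Row 250, block R (helper63): the leaves of `StaticS`

`N` = almost shrinker (slice `0`), `G` = model valid on `B_m`, `v = Tb.sd G 0` = signed distance.
-/

set_option autoImplicit false
open MeasureTheory Set Filter Topology
open scoped ContDiff InnerProductSpace
open Crest.GeometryTopology.MCF

noncomputable section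

namespace Crest.Agent.N250.R

/-- the standing hypotheses: closed surface `N`, model `G` with reach `ρ₀` on `B_m` -/
structure Ctx (N : Mv) (Λ : ℝ) (G : Mv) (m ρ₀ : ℝ) : Prop where
  reg : N.Reg
  st : N.Static
  closed : IsClosed N.M
  ar : N.AR Λ
  greg : G.Reg
  gst : G.Static
  gprop : G.Proper (Metric.ball 0 m ×ˢ univ)
  greach : ∀ x ∈ G.sl 0, ‖x‖ < m → G.Reach (x, 0) ρ₀

/-- the induction hypothesis `P(r)` -/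
def Nr (N G : Mv) (m ρ₀ r ρ₁ δ : ℝ) : Prop :=
  ∀ x ∈ N.sl 0, ‖x‖ < r →
    N.Reach (x, 0) ρ₁ ∧ x ∈ Tb.tube G 0 (Metric.ball 0 m) ρ₀ ∧ |Tb.sd G 0 x| ≤ δ

/-- Hausdorff closeness on `B_R`, both ways, no orientation -/
def Hd (N S : Mv) (R δ : ℝ) : Prop :=
  (∀ x ∈ N.sl 0, ‖x‖ < R → ∃ y ∈ S.sl 0, dist x y < δ) ∧
  ∀ y ∈ S.sl 0, ‖y‖ < R → ∃ x ∈ N.sl 0, dist x y < δ

/-- Lagrange equation of the model up to `w * gau` -/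
def Lag (G : Mv) {n : ℕ} (f : Fin n → E → ℝ) (c : Fin n → ℝ) (m w : ℝ) : Prop :=
  ∀ y ∈ G.sl 0, ‖y‖ < m →
    |gau 0 1 y * G.shr (y, 0) - ∑ i, c i * G.fv (f i) (y, 0)| ≤ w * gau 0 1 y

/-- Gaussian `H¹` norm squared of `v = sd` on `N ∩ B_r` (`|∇v|² = 1 - ⟪n, ν⟫²`, `Tub.gam_ht`) -/
def H1 (N G : Mv) (r : ℝ) : ENNReal :=
  ∫⁻ x in Metric.ball 0 r, ENNReal.ofReal
    ((Tb.sd G 0 x ^ 2 + (1 - ⟪N.n (x, 0), G.n (Tb.pr G 0 x, 0)⟫_ℝ ^ 2)) * gau 0 1 x) ∂N.mu 0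

/-- S4 = EC + G1: the static Gaussian estimate -/
def StatS : Prop := ∀ (S : Mv) (Λ ρ₀ ρ₁ : ℝ) (n : ℕ) (f : Fin n → E → ℝ), S.IsShr → S.AR Λ →
  Cons S f → 0 < ρ₀ → ρ₀ ≤ 1 → 0 < ρ₁ →
  ∃ δ R₁ C : ℝ, 0 < δ ∧ 0 < C ∧ ∀ (N G : Mv) (m r w : ℝ) (c : Fin n → ℝ),
    Ctx N Λ G m ρ₀ → R₁ ≤ r → r + 3 ≤ m → Nr N G m ρ₀ r ρ₁ δ → Near G S R₁ δ → Hd N S R₁ δ →
    Lag G f c m w → (∀ i, |∫ x, f i x ∂G.mu 0 - ∫ x, f i x ∂N.mu 0| ≤ w) →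
    N.dis ≤ ENNReal.ofReal (w ^ 2) → Real.exp (-(r - 2) ^ 2 / 8) ≤ w → w ≤ 1 →
    ‖c‖ ≤ C * w ∧ H1 N G (r - 1) ≤ ENNReal.ofReal (C * w ^ 2)

/-- SUP + S5 + S6: `P(r)`, regularity on `B_{r+1}` and exponential smallness give `P(r+1)` -/
def ImpS : Prop := ∀ Λ ρ₀ ρ₁ : ℝ, 0 < ρ₀ → ρ₀ ≤ 1 → 0 < ρ₁ → ∃ δ₀ : ℝ, 0 < δ₀ ∧
  ∀ δ κ C : ℝ, 0 < δ → δ ≤ δ₀ → 0 < κ → 0 < C → ∃ R₁ : ℝ, ∀ (N G : Mv) (m r : ℝ),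
    Ctx N Λ G m ρ₀ → R₁ ≤ r → r + 3 ≤ m → Nr N G m ρ₀ r ρ₁ δ →
    (∀ x ∈ N.sl 0, ‖x‖ < r + 1 →
      N.Reach (x, 0) ρ₁ ∧ |N.shr (x, 0)| ≤ C * Real.exp (-κ * r ^ 2)) →
    (∀ y ∈ G.sl 0, ‖y‖ < m → |G.shr (y, 0)| ≤ C * Real.exp (-κ * r ^ 2)) →
    H1 N G (r - 1) ≤ ENNReal.ofReal (C * Real.exp (-κ * r ^ 2)) →
    Nr N G m ρ₀ (r + 1) ρ₁ δ

/-- EN: upper bound for the Gaussian area -/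
def EnS : Prop := ∀ Λ ρ₀ ρ₁ : ℝ, 0 < ρ₀ → ρ₀ ≤ 1 → 0 < ρ₁ → ∃ δ C : ℝ, 0 < δ ∧ 0 < C ∧
  ∀ (N G : Mv) (m r ε M B : ℝ), Ctx N Λ G m ρ₀ → 2 ≤ r → r + 3 ≤ m → Nr N G m ρ₀ r ρ₁ δ →
    0 ≤ M → 0 ≤ B → (∀ y ∈ G.sl 0, ‖y‖ < m → |G.shr (y, 0)| ≤ ε) →
    H1 N G (r - 1) ≤ ENNReal.ofReal M →
    ∫⁻ x in Metric.ball 0 m, ENNReal.ofReal (gau 0 1 x) ∂G.mu 0 ≤ ENNReal.ofReal B →
    N.Fs 0 0 1 ≤ B + C * (ε ^ 2 + M + Real.exp (-(r - 1) ^ 2 / 5))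

/-- START: what smooth convergence to `S'` (same set as `S`) gives -/
def StartS : Prop := ∀ (S S' : Mv) (l : Ultrafilter ℝ) (N : ℝ → Mv), S.IsShr → S'.IsShr →
  S'.M = S.M → Conv l N S' univ →
  (∀ R : ℝ, ∃ ρ : ℝ, 0 < ρ ∧ ∀ᶠ k in (l : Filter ℝ), ∀ x ∈ (N k).sl 0, ‖x‖ < R →
    (N k).Reach (x, 0) ρ) ∧
  (∀ R δ : ℝ, 0 < δ → ∀ᶠ k in (l : Filter ℝ), Hd (N k) S R δ) ∧
  ∀ g : E → ℝ, Continuous g → HasCompactSupport g →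
    Tendsto (fun k => ∫ x, g x ∂(N k).mu 0) l (𝓝 (∫ x, g x ∂S.mu 0))

end Crest.Agent.N250.R

end
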