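import Crest.Agent.N250.R.Step
import Crest.Agent.N250.R.Stm
import Crest.Agent.N250.Sg.Sup

/-!
# Row 250 (helper59): the improvement step `R.ImpS`
-/

set_option autoImplicit false
open MeasureTheory Set Filter Topology Metric
open scoped ContDiff InnerProductSpace
open Crest.GeometryTopology.MCF

noncomputable section

namespace Crest.Agent.N250.R

open Tb

theorem ev_small {k ε : ℝ} (hk : 0 < k) (hε : 0 < ε) :
    ∀ᶠ r : ℝ in atTop, Real.exp (-k * r ^ 2) ≤ ε := by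
  have h : Tendsto (fun r : ℝ => Real.exp (-k * r ^ 2)) atTop (𝓝 0) :=
    Real.tendsto_exp_atBot.comp
      ((tendsto_pow_atTop two_ne_zero).const_mul_atTop_of_neg (neg_neg_of_pos hk))
  exact h.eventually (ge_mem_nhds hε)

/-- pointwise bound of the height from its Gaussian `H¹` norm -/
theorem sd_pow4 {N G : Mv} {Λ m ρ₀ r ρ₁ δ I R : ℝ} {x : E} (h : Ctx N Λ G m ρ₀) (h1 : 0 < ρ₁)
    (hN : Nr N G m ρ₀ r ρ₁ δ) (hI : 0 ≤ I) (hH : H1 N G (r - 1) ≤ ENNReal.ofReal I)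
    (hx : x ∈ N.sl 0) (hR : ‖x‖ + 1 ≤ R) (hr : R ≤ r - 1)
    (hJ : 4 * Real.pi * Real.exp (R ^ 2 / 4) * I ≤ 1) :
    sd G 0 x ^ 4 ≤ (512 + 128 ^ 2 / min ρ₁ 1 ^ 4) * (4 * Real.pi * Real.exp (R ^ 2 / 4) * I) := by
  have hG : ∀ y ∈ G.sl 0, y ∈ ball (0 : E) m → G.Reach (y, 0) ρ₀ := fun y hy h' =>
    h.greach y hy (mem_ball_zero_iff.1 h')
  have hT := tub h.greg hG isOpen_ball
  have r0 : 0 < min ρ₁ 1 := lt_min h1 one_pos
  have hb : ∀ y ∈ ball x (min ρ₁ 1), ‖y‖ < r - 1 := fun y hy => by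
    have := norm_lt_of_mem_ball hy
    linarith [min_le_right ρ₁ 1]
  have hc := Sp.closed_sl h.closed 0
  have k := Sg.sup_gau (v := fun y => infDist y (G.sl 0)) (L := 1) (I := I) (R := R) h.reg hx r0
    (min_le_left ρ₁ 1) (fun y hy _ => hc.closure_subset hy)
    (fun y hy h' => (hN y hy (by linarith [hb y h'])).1) one_pos hI
    (by linarith [min_le_right ρ₁ 1]) (fun y _ _ => ?_) ?_
  · have k2 := Sg.pow4_of_or r0 (by positivity) hJ k
    rw [← abs_sd_eq h.greg hG (hN x hx (by linarith)).2.1, one_pow, mul_one] at k2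
    rwa [← abs_of_nonneg (by positivity : 0 ≤ sd G 0 x ^ 4), abs_pow]
  · rw [one_mul, ← dist_eq_norm, ← Real.dist_eq]
    simpa using (lipschitz_infDist_pt (G.sl 0)).dist_le_mul y x
  · refine le_trans ?_ hH
    refine le_trans ?_ (lintegral_mono_set fun y hy => mem_ball_zero_iff.2 (hb y hy))
    refine lintegral_mono_ae ?_
    have a1 : ∀ᵐ y ∂(N.mu 0).restrict (ball x (min ρ₁ 1)), y ∈ N.sl 0 :=
      ae_restrict_of_ae (ae_restrict_mem hc.measurableSet)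
    filter_upwards [a1, ae_restrict_mem measurableSet_ball] with y hy hy'
    have hm := (hN y hy (by linarith [hb y hy'])).2.1
    refine ENNReal.ofReal_le_ofReal (mul_le_mul_of_nonneg_right ?_ (by unfold gau; positivity))
    rw [← abs_sd_eq h.greg hG hm, sq_abs]
    have := hT.cs_sq_le (p := (y, 0)) h.greg h.reg hy hm
    simp only [cs] at this
    linarith

theorem impS_holds : ImpS := by
  intro Λ ρ₀ ρ₁ h0 h1 hρ
  refine ⟨ρ₀ / 4, by positivity, fun δ κ C hδ hδ' hκ hC => ?_⟩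
  obtain ⟨γ, hγ, g1, g2⟩ : ∃ γ : ℝ, 0 < γ ∧ γ ≤ 1 / 5 ∧ γ ≤ κ / 8 :=
    ⟨min (1 / 5) (κ / 8), by positivity, min_le_left _ _, min_le_right _ _⟩
  obtain ⟨R₀, hR₀, H⟩ := Sp.step h0 h1 hρ hδ hδ' hγ g1
  obtain ⟨s₁, -, H⟩ := H R₀ le_rfl
  obtain ⟨Q, hQ⟩ : ∃ Q, Q = 4 * Real.pi * Real.exp ((R₀ + 1) ^ 2 / 4) := ⟨_, rfl⟩
  obtain ⟨D, hD⟩ : ∃ D : ℝ, D = 512 + 128 ^ 2 / min ρ₁ 1 ^ 4 := ⟨_, rfl⟩
  have hQ0 : 0 < Q := by rw [hQ]; positivity
  have hD0 : 0 < D := by rw [hD]; positivity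
  have k2 : 0 < κ / 2 := by positivity
  obtain ⟨R₁, hR₁⟩ := eventually_atTop.1 ((eventually_ge_atTop s₁).and
    ((eventually_ge_atTop (R₀ + 2)).and ((ev_small k2 (by positivity : 0 < 1 / C)).and
    ((ev_small k2 (by positivity : 0 < δ / 16 / C)).and
    ((ev_small k2 (by positivity : 0 < 1 / (Q * C))).and
    (ev_small k2 (by positivity : 0 < (δ / 8) ^ 4 / (D * (Q * C)))))))))
  refine ⟨R₁, fun N G m r h hr hm hN hB hs hH => ?_⟩
  obtain ⟨t1, t2, t3, t4, t5, t6⟩ := hR₁ r hr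
  obtain ⟨T, hT⟩ : ∃ T, T = Real.exp (-(κ / 2) * r ^ 2) := ⟨_, rfl⟩
  have T0 : 0 < T := hT ▸ Real.exp_pos _
  have r2 := sq_nonneg r
  have T1 : T ≤ 1 := hT ▸ Real.exp_le_one_iff.2 (by nlinarith)
  have T2 : Real.exp (-κ * r ^ 2) = T * T := by rw [hT, ← Real.exp_add]; congr 1; ring
  have T3 : T * Real.exp (γ * r ^ 2) ≤ 1 := by
    rw [hT, ← Real.exp_add]; exact Real.exp_le_one_iff.2 (by nlinarith)
  have T4 : T ≤ Real.exp (-(γ * r ^ 2)) ^ 4 := by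
    rw [hT, ← Real.exp_nat_mul]; exact Real.exp_le_exp.2 (by push_cast; nlinarith)
  rw [← hT, le_div_iff₀ (by positivity)] at t3 t4 t5 t6
  rw [T2] at hB hs hH
  obtain ⟨ρ, rfl⟩ : ∃ ρ, m = ρ + 3 := ⟨m - 3, by ring⟩
  intro x hx hx'
  refine ⟨(hB x hx hx').1, H G N ρ r (δ / 8 * Real.exp (-(γ * r ^ 2))) (C * (T * T)) h.greg h.gprop
    h.greach h.reg h.closed t1 (by linarith) hB (fun y hy _ h' => hs y hy h') (by positivity)
    (by positivity) (by nlinarith) (fun y hy h' => (hN y hy h').2) (fun y hy h' => ?_) ?_ x hx hx'⟩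
  · have k := sd_pow4 (R := R₀ + 1) h hρ hN (by positivity) hH hy (by linarith) (by linarith)
      (by rw [← hQ]; nlinarith)
    rw [← hQ, ← hD] at k
    refine abs_le_of_sq_le_sq' ?_ (by positivity) |> abs_le.2
    refine (pow_le_pow_iff_left₀ (sq_nonneg _) (sq_nonneg _) two_ne_zero).1 ?_
    rw [← pow_mul, ← pow_mul, mul_pow]
    have e1 := mul_le_mul_of_nonneg_left T4 (by positivity : 0 ≤ (δ / 8) ^ 4)
    have e2 := mul_le_mul_of_nonneg_right t6 T0.le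
    norm_num
    nlinarith
  · have e1 : Real.exp (-(γ * r ^ 2)) * Real.exp (γ * r ^ 2) = 1 := by
      rw [← Real.exp_add, neg_add_cancel, Real.exp_zero]
    have e2 := mul_le_mul_of_nonneg_left T3 (by positivity : 0 ≤ T * C)
    nlinarith

end Crest.Agent.N250.R

end
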