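import Crest.Agent.N250.R.Stm
import Crest.Agent.N250.Cv.Api
import Crest.Agent.N250.T.Reach2
import Crest.Agent.N250.T.CMu

/-!
# Row 250, block R (helper46): `StartS`
-/

set_option autoImplicit false
open MeasureTheory Set Filter Topology
open scoped ContDiff InnerProductSpace
open Crest.GeometryTopology.MCF

noncomputable section

namespace Crest.Agent.N250.R

/-- uniformity on compact sets along an ultrafilter: test on convergent families -/
theorem viol {α X : Type} [TopologicalSpace X] [Nonempty X] {l : Ultrafilter α} {K : Set X}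
    (hK : IsCompact K) {P Q : α → X → Prop}
    (h : ∀ (xk : α → X), ∀ x ∈ K, Tendsto xk l (𝓝 x) → (∀ᶠ k in (l : Filter α), Q k (xk k)) →
      ∀ᶠ k in (l : Filter α), P k (xk k)) :
    ∀ᶠ k in (l : Filter α), ∀ x ∈ K, Q k x → P k x := by
  by_contra hn
  rw [← Ultrafilter.eventually_not] at hn
  have h1 : ∀ k, ∃ x, (¬∀ x ∈ K, Q k x → P k x) → x ∈ K ∧ Q k x ∧ ¬P k x := by
    intro k
    by_cases hk : ∀ x ∈ K, Q k x → P k x
    · exact ⟨Classical.arbitrary X, fun h => (h hk).elim⟩
    · push Not at hk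
      obtain ⟨x, hx⟩ := hk
      exact ⟨x, fun _ => hx⟩
  choose xk hx using h1
  have h2 := hn.mono hx
  obtain ⟨x, hxK, ht⟩ := hK.ultrafilter_le_nhds (l.map xk)
    (le_principal_iff.2 (mem_map.2 (h2.mono fun _ h => h.1)))
  obtain ⟨k, h3, h4⟩ := (h2.and (h xk x hxK ht (h2.mono fun _ h => h.2.1))).exists
  exact h3.2.2 h4

theorem startS_holds : StartS := by
  intro S S' l N _ hS' hM hc
  have hsl : S.sl 0 = S'.sl 0 := by simp only [Mv.sl, hM]
  have hp : ∀ {xk : ℝ → E} {x : E}, Tendsto xk l (𝓝 x) →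
      Tendsto (fun k => ((xk k, 0) : ST)) l (𝓝 (x, 0)) := fun h => h.prodMk_nhds tendsto_const_nhds
  refine ⟨fun R => ?_, fun R δ hδ => ?_, fun g hg hs => ?_⟩
  · obtain ⟨ρ, hρ, h⟩ := reachPosS_holds S' hS'.reg univ (Metric.closedBall 0 R ×ˢ {0})
      isOpen_univ (fun p hp _ => hS'.closed.closure_subset hp)
      ((isCompact_closedBall _ _).prod isCompact_singleton) (subset_univ _)
    refine ⟨ρ / 2, half_pos hρ, ?_⟩
    have := viol (l := l) (isCompact_closedBall (0 : E) R) (Q := fun k x => x ∈ (N k).sl 0)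
      (P := fun k x => (N k).Reach (x, 0) (ρ / 2)) fun xk x hx ht hk =>
      (convReachS_holds _ l N S' univ isOpen_univ hc _ _ ρ hρ (hp ht) hk (subset_univ _)).2
        (h _ ⟨Cv.mem_of_conv hc (mem_univ _) (hp ht) hk, hx, rfl⟩) _ (half_lt_self hρ)
    exact this.mono fun k h x hx hR => h x (mem_closedBall_zero_iff.2 hR.le) hx
  · have h1 := viol (l := l) (isCompact_closedBall (0 : E) R) (Q := fun k x => x ∈ (N k).sl 0)
      (P := fun _ x => ∃ y ∈ S.sl 0, dist x y < δ) fun xk x _ ht hk =>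
      (Metric.tendsto_nhds.1 ht δ hδ).mono fun k h =>
        ⟨x, by rw [hsl]; exact Cv.mem_of_conv hc (mem_univ _) (hp ht) hk, h⟩
    have h2 := viol (l := l) (isCompact_closedBall (0 : E) R) (Q := fun _ y => y ∈ S.sl 0)
      (P := fun k y => ∃ x ∈ (N k).sl 0, dist x y < δ) fun yk y _ ht hk => by
        have hy : (y, 0) ∈ S'.M := hS'.closed.mem_of_tendsto (hp ht) (by rw [hsl] at hk; exact hk)
        obtain ⟨xk, h1, h2⟩ := Cv.conv_pts hc (mem_univ _) hy (tk := fun _ => 0) tendsto_const_nhds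
        have h3 := (h1.dist ht).eventually (gt_mem_nhds (by simpa using hδ : dist y y < δ))
        filter_upwards [h2, h3] with k h4 h5
        exact ⟨xk k, h4, h5⟩
    filter_upwards [h1, h2] with k h3 h4
    exact ⟨fun x hx hR => h3 x (mem_closedBall_zero_iff.2 hR.le) hx,
      fun y hy hR => h4 y (mem_closedBall_zero_iff.2 hR.le) hy⟩
  · have := convMuS_holds _ l N S' univ (tsupport g ×ˢ Icc (-1) 1) isOpen_univ hc
      (hs.isCompact.prod isCompact_Icc) (subset_univ _)
      (fun q => g q.1.1 * max 0 (1 - |q.1.2|)) (by fun_prop) (fun q hq => by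
        by_cases h : q.1.1 ∈ tsupport g
        · have h1 : ¬|q.1.2| ≤ 1 := fun h1 => hq ⟨h, abs_le.1 h1⟩
          rw [max_eq_left (by linarith [not_le.1 h1]), mul_zero]
        · rw [image_eq_zero_of_notMem_tsupport h, zero_mul])
      (fun _ => 0) 0 tendsto_const_nhds
    simpa [Mv.mu, hsl] using this

end Crest.Agent.N250.R

end
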