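import Crest.Agent.N250.R.Stm
import Crest.Agent.N250.R.Cone
import Crest.Agent.N250.T.Reach

/-!
# Row 250, block R (helper63): the induction in the radius, `StaticS` from its leaves
-/

set_option autoImplicit false
open MeasureTheory Set Filter Topology
open scoped ContDiff InnerProductSpace
open Crest.GeometryTopology.MCF

noncomputable section

namespace Crest.Agent.N250.R

theorem fv_le {n : ℕ} {f : Fin n → E → ℝ} (hs : ∀ i, ContDiff ℝ ∞ (f i))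
    (hc : ∀ i, HasCompactSupport (f i)) {ρ : ℝ} (hρ : 0 < ρ) : ∃ K : ℝ, 0 < K ∧
    ∀ (G : Mv) (y : E) (c : Fin n → ℝ), G.Reg → y ∈ G.sl 0 → G.Reach (y, 0) ρ →
      |∑ i, c i * G.fv (f i) (y, 0)| ≤ K * ‖c‖ * gau 0 1 y := by
  have h1 : ∀ i, ∃ K : ℝ, ∀ y, (‖fderiv ℝ (f i) y‖ + 3 / ρ * |f i y|) * (gau 0 1 y)⁻¹ ≤ K := by
    intro i
    have c1 : Continuous fun y => (‖fderiv ℝ (f i) y‖ + 3 / ρ * |f i y|) * (gau 0 1 y)⁻¹ :=
      ((((hs i).continuous_fderiv (by simp)).norm).add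
        (continuous_const.mul (hs i).continuous.abs)).mul
        ((A.gau_cont 0 1).inv₀ fun y => (A.gau_pos one_pos 0 y).ne')
    have c2 : HasCompactSupport
        fun y => (‖fderiv ℝ (f i) y‖ + 3 / ρ * |f i y|) * (gau 0 1 y)⁻¹ :=
      (((hc i).fderiv (𝕜 := ℝ)).norm.add (HasCompactSupport.mul_left (hc i).abs)).mul_right
    obtain ⟨K, hK⟩ := c2.exists_bound_of_continuous c1
    exact ⟨K, fun y => (le_abs_self _).trans (hK y)⟩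
  choose K hK using h1
  refine ⟨∑ i, |K i| + 1, by positivity, fun G y c hG hy hR => ?_⟩
  have hg := A.gau_pos one_pos 0 y
  have hH : |G.H (y, 0)| ≤ 3 / ρ := by
    have h2 : ∀ a, |G.A a a (y, 0)| ≤ 1 / ρ := fun a => by
      have := (reachAS_holds G hG (y, 0) hy ρ hρ hR).1 (Pi.single a 1)
      simpa [Pi.single_apply] using this
    have e : G.H (y, 0) = ∑ a, G.A a a (y, 0) := by simp [Mv.H]
    rw [e]
    refine (Finset.abs_sum_le_sum_abs _ _).trans ((Finset.sum_le_sum fun a _ => h2 a).trans ?_)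
    simp; ring_nf; rfl
  have h3 : ∀ i, |G.fv (f i) (y, 0)| ≤ |K i| * gau 0 1 y := fun i => by
    have h4 := hK i y
    rw [← div_eq_mul_inv, div_le_iff₀ hg] at h4
    refine le_trans ?_ (h4.trans (mul_le_mul_of_nonneg_right (le_abs_self _) hg.le))
    refine (abs_add_le _ _).trans (add_le_add ?_ ?_)
    · refine (abs_real_inner_le_norm _ _).trans ?_
      rw [hG.norm_n hy, mul_one, gradient, LinearIsometryEquiv.norm_map]
    · rw [abs_mul]; exact mul_le_mul_of_nonneg_right hH (abs_nonneg _)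
  calc |∑ i, c i * G.fv (f i) (y, 0)| ≤ ∑ i, ‖c‖ * (|K i| * gau 0 1 y) :=
        (Finset.abs_sum_le_sum_abs _ _).trans (Finset.sum_le_sum fun i _ => by
          rw [abs_mul]
          exact mul_le_mul (norm_le_pi_norm c i) (h3 i) (abs_nonneg _) (norm_nonneg _))
    _ = (∑ i, |K i|) * ‖c‖ * gau 0 1 y := by
        rw [← Finset.mul_sum, ← Finset.sum_mul]; ring
    _ ≤ _ := by gcongr; linarith

theorem shr_le {G : Mv} {n : ℕ} {f : Fin n → E → ℝ} {c : Fin n → ℝ} {m w K : ℝ} {y : E}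
    (h : Lag G f c m w) (hy : y ∈ G.sl 0) (hm : ‖y‖ < m)
    (hK : |∑ i, c i * G.fv (f i) (y, 0)| ≤ K * ‖c‖ * gau 0 1 y) :
    |G.shr (y, 0)| ≤ K * ‖c‖ + w := by
  have hg := A.gau_pos one_pos 0 y
  have h1 := h y hy hm
  have h2 : gau 0 1 y * |G.shr (y, 0)| ≤ gau 0 1 y * (K * ‖c‖ + w) := by
    rw [← abs_of_pos hg, ← abs_mul, abs_of_pos hg]
    have := abs_sub_abs_le_abs_sub (gau 0 1 y * G.shr (y, 0)) (∑ i, c i * G.fv (f i) (y, 0))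
    nlinarith
  exact le_of_mul_le_mul_left h2 hg

theorem ev_quad {a b d : ℝ} (ha : 0 < a) : ∀ᶠ x : ℝ in atTop, d + b * x ≤ a * x ^ 2 := by
  filter_upwards [eventually_ge_atTop (max 1 ((|b| + |d|) / a))] with x hx
  have h1 : 1 ≤ x := (le_max_left _ _).trans hx
  have h2 : |b| + |d| ≤ x * a := (div_le_iff₀ ha).1 ((le_max_right _ _).trans hx)
  nlinarith [le_abs_self b, le_abs_self d, abs_nonneg d, abs_nonneg b,
    mul_le_mul_of_nonneg_right h2 (show 0 ≤ x by linarith)]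

theorem ev_alt (C : ℝ) (N : ℕ) :
    ∃ ρ₁ : ℝ, ∀ ρ, ρ₁ ≤ ρ → C * ρ ^ N * Real.exp (-(ρ - 3) ^ 2 / 8) < 1 := by
  obtain ⟨ρ₁, h⟩ := eventually_atTop.1
    ((ev_quad (a := 1 / 8) (b := N + 1) (d := |C|) (by norm_num)).and (eventually_ge_atTop 0))
  refine ⟨ρ₁, fun ρ hρ => ?_⟩
  obtain ⟨h1, h0⟩ := h ρ hρ
  have e1 : ρ ^ N ≤ Real.exp (N * ρ) := by
    rw [Real.exp_nat_mul]
    exact pow_le_pow_left₀ h0 (by linarith [Real.add_one_le_exp ρ]) N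
  have e2 : C ≤ Real.exp |C| := by linarith [Real.add_one_le_exp |C|, le_abs_self C]
  calc C * ρ ^ N * Real.exp (-(ρ - 3) ^ 2 / 8)
      ≤ Real.exp |C| * Real.exp (N * ρ) * Real.exp (-(ρ - 3) ^ 2 / 8) := by gcongr
    _ = Real.exp (|C| + N * ρ + -(ρ - 3) ^ 2 / 8) := by rw [Real.exp_add, Real.exp_add]
    _ < 1 := Real.exp_lt_one_iff.2 (by nlinarith)

theorem ev_fin {μ η θ : ℝ} (C : ℝ) (hμ : 0 < μ) (hη : η < 1) (h : 2 * θ < μ * (1 - η) ^ 2) :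
    ∀ᶠ R : ℝ in atTop, ∀ s, (1 - η) * R - 1 ≤ s →
      C * Real.exp (-(s - 2) ^ 2 / 8) ^ μ ≤ Real.exp (-θ * R ^ 2 / 4) := by
  filter_upwards [ev_quad (a := (μ * (1 - η) ^ 2 - 2 * θ) / 8) (b := 6 * μ * (1 - η) / 8) (d := |C|)
    (by linarith), (tendsto_id.const_mul_atTop (sub_pos.2 hη)).eventually_ge_atTop 3] with R h1 h2 s hs
  have e2 : C ≤ Real.exp |C| := by linarith [Real.add_one_le_exp |C|, le_abs_self C]
  simp only [id] at h2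
  have h3 : ((1 - η) * R - 3) ^ 2 ≤ (s - 2) ^ 2 := pow_le_pow_left₀ (by linarith) (by linarith) 2
  rw [← Real.exp_mul]
  calc C * Real.exp (-(s - 2) ^ 2 / 8 * μ) ≤ Real.exp |C| * Real.exp (-(s - 2) ^ 2 / 8 * μ) := by
        gcongr
    _ = Real.exp (|C| + -(s - 2) ^ 2 / 8 * μ) := by rw [Real.exp_add]
    _ ≤ _ := Real.exp_le_exp.2 (by nlinarith [mul_le_mul_of_nonneg_left h3 hμ.le])

theorem Nr.mono {N G : Mv} {m ρ₀ r ρ₁ δ δ' : ℝ} (h : Nr N G m ρ₀ r ρ₁ δ) (hδ : δ ≤ δ') :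
    Nr N G m ρ₀ r ρ₁ δ' := fun x hx hr => ⟨(h x hx hr).1, (h x hx hr).2.1, (h x hx hr).2.2.trans hδ⟩

theorem near_mono {G S : Mv} {R R' ε ε' : ℝ} (h : Near G S R ε) (hR : R' ≤ R) (hε : ε ≤ ε') :
    Near G S R' ε' :=
  ⟨fun x hx h1 => by
    obtain ⟨y, a, b, c, d⟩ := h.1 x hx (h1.trans_le hR)
    exact ⟨y, a, b.trans_le hε, c.trans_le hε, fun i j => (d i j).trans_le hε⟩,
  fun y hy h1 => by
    obtain ⟨x, a, b⟩ := h.2 y hy (h1.trans_le hR)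
    exact ⟨x, a, b.trans_le hε⟩⟩

theorem closed_sl {N : Mv} (h : IsClosed N.M) (U : Set E) :
    ∀ y ∈ closure (N.sl 0), y ∈ U → y ∈ N.sl 0 := fun y hy _ => by
  have : IsClosed (N.sl 0) := h.preimage (f := fun x : E => (x, (0 : ℝ))) (by fun_prop)
  rwa [this.closure_eq] at hy

theorem el1 (x : ℝ) {c : ℝ} (hc : 0 < c) : Real.exp (-x ^ 2 / c) ≤ 1 :=
  Real.exp_le_one_iff.2 (div_nonpos_of_nonpos_of_nonneg (neg_nonpos.2 (sq_nonneg x)) hc.le)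

theorem ball_sub {x : E} {d r : ℝ} (h : ‖x‖ + d < r) : Metric.closedBall x d ⊆ Metric.ball 0 r :=
  fun u hu => by
    have h5 := norm_le_norm_add_norm_sub' u x
    rw [← dist_eq_norm] at h5
    have := Metric.mem_closedBall.1 hu
    exact mem_ball_zero_iff.2 (by linarith)

theorem fin_num {C₀ C₂ C₃ A μ μ' s ρ a : ℝ} (hC₀ : 0 < C₀) (C₂p : 0 < C₂) (C₃p : 0 < C₃)
    (m1 : 1 < μ') (m2 : μ' ≤ 4 / 3) (m3 : μ' ≤ μ) (s2 : 2 ≤ s) (sρ : s ≤ ρ) (a0 : 0 ≤ a)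
    (t1 : a ≤ C₂ * Real.exp (-(s - 2) ^ 2 / 8)) :
    C₀ * a ^ μ + C₀ * Real.exp (-ρ ^ 2 / 6) + C₃ * ((A * Real.exp (-(s - 2) ^ 2 / 8)) ^ 2 +
      C₂ * Real.exp (-(s - 2) ^ 2 / 8) ^ 2 + Real.exp (-(s - 1) ^ 2 / 5)) ≤
    (C₀ * C₂ ^ μ + C₀ + C₃ * (A ^ 2 + C₂ + 1)) * Real.exp (-(s - 2) ^ 2 / 8) ^ μ' := by
  have u5 : Real.exp (-(s - 2) ^ 2 / 6) ≤ Real.exp (-(s - 2) ^ 2 / 8) ^ μ' := by
    rw [← Real.exp_mul]; exact Real.exp_le_exp.2 (by nlinarith [sq_nonneg (s - 2)])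
  have w0 : 0 < Real.exp (-(s - 2) ^ 2 / 8) := Real.exp_pos _
  have w2 := el1 (s - 2) (c := 8) (by norm_num)
  generalize Real.exp (-(s - 2) ^ 2 / 8) = w at *
  have u1 : w ^ μ ≤ w ^ μ' := Real.rpow_le_rpow_of_exponent_ge w0 w2 m3
  have u2 : w ^ 2 ≤ w ^ μ' := by
    rw [← Real.rpow_natCast]; exact Real.rpow_le_rpow_of_exponent_ge w0 w2 (by push_cast; linarith)
  have u3 : Real.exp (-ρ ^ 2 / 6) ≤ w ^ μ' := le_trans (Real.exp_le_exp.2 (by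
    have : (s - 2) ^ 2 ≤ ρ ^ 2 := pow_le_pow_left₀ (by linarith) (by linarith) 2
    linarith)) u5
  have u4 : Real.exp (-(s - 1) ^ 2 / 5) ≤ w ^ μ' := le_trans (Real.exp_le_exp.2 (by nlinarith)) u5
  have u6 : a ^ μ ≤ C₂ ^ μ * w ^ μ' := by
    refine (Real.rpow_le_rpow a0 t1 (by linarith)).trans ?_
    rw [Real.mul_rpow C₂p.le w0.le]
    exact mul_le_mul_of_nonneg_left u1 (by positivity)
  have v1 := mul_le_mul_of_nonneg_left u6 hC₀.le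
  have v2 := mul_le_mul_of_nonneg_left u3 hC₀.le
  have v3 : (A * w) ^ 2 + C₂ * w ^ 2 + Real.exp (-(s - 1) ^ 2 / 5) ≤ (A ^ 2 + C₂ + 1) * w ^ μ' := by
    have a1 := mul_le_mul_of_nonneg_left u2 (sq_nonneg A)
    have a2 := mul_le_mul_of_nonneg_left u2 C₂p.le
    rw [mul_pow]; linarith
  have v4 := mul_le_mul_of_nonneg_left v3 C₃p.le
  linarith

theorem exp_cmp {κ κ' s R : ℝ} (hκ : 0 < κ) (k1 : κ' ≤ κ) (k2 : κ' ≤ 1 / 32) (s4 : 4 ≤ s)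
    (sR : s ≤ R) : Real.exp (-(s - 2) ^ 2 / 8) ≤ Real.exp (-κ' * s ^ 2) ∧
      Real.exp (-(s - 2) ^ 2 / 8) ^ 2 ≤ Real.exp (-κ' * s ^ 2) ∧
      Real.exp (-κ * R ^ 2) ≤ Real.exp (-κ' * s ^ 2) := by
  have w1 : Real.exp (-(s - 2) ^ 2 / 8) ≤ Real.exp (-κ' * s ^ 2) := Real.exp_le_exp.2 (by
    nlinarith [mul_le_mul_of_nonneg_right k2 (sq_nonneg s)])
  refine ⟨w1, le_trans (pow_le_of_le_one (Real.exp_pos _).le (el1 _ (by norm_num)) two_ne_zero) w1,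
    Real.exp_le_exp.2 ?_⟩
  have : s ^ 2 ≤ R ^ 2 := pow_le_pow_left₀ (by linarith) sR 2
  linarith [mul_le_mul k1 this (sq_nonneg s) hκ.le]

/-- the tolerance asked from the model -/
def tol (R : ℝ) : ℝ := Real.exp (-R ^ 2 / 8) * ((4 * Real.pi)⁻¹ * Real.exp (-(R + 3) ^ 2 / 4))

theorem tol_pos (R : ℝ) : 0 < tol R := by unfold tol; positivity

theorem tol_le {R w : ℝ} (h : Real.exp (-R ^ 2 / 8) ≤ w) :
    tol R ≤ w ∧ ∀ y : E, ‖y‖ ≤ R + 3 → tol R ≤ w * gau 0 1 y := by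
  have p4 : (4 * Real.pi)⁻¹ ≤ 1 := inv_le_one_of_one_le₀ (by linarith [Real.pi_gt_three])
  refine ⟨le_trans (mul_le_of_le_one_right (by positivity)
    (mul_le_one₀ p4 (by positivity) (el1 _ (by norm_num)))) h, fun y hy =>
    mul_le_mul h ?_ (by positivity) ((Real.exp_pos _).le.trans h)⟩
  have : ‖y‖ ^ 2 ≤ (R + 3) ^ 2 := pow_le_pow_left₀ (norm_nonneg _) hy 2
  simp only [gau, mul_one, sub_zero]
  exact mul_le_mul_of_nonneg_left (Real.exp_le_exp.2 (by linarith)) (by positivity)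

theorem start_tube {N G S : Mv} {m ρ₀ R ε : ℝ} (hG : G.Reg)
    (hP : G.Proper (Metric.ball 0 m ×ˢ univ))
    (gre : ∀ x ∈ G.sl 0, x ∈ Metric.ball (0 : E) m → G.Reach (x, 0) ρ₀) (h1 : Hd N S R ε)
    (h2 : Near G S ε⁻¹ ε) (e1 : 4 * ε ≤ ρ₀) (e2 : ρ₀ ≤ 1) (e3 : R + 1 ≤ ε⁻¹) (e4 : R + 1 ≤ m) :
    ∀ x ∈ N.sl 0, x ∈ Metric.ball (0 : E) R →
      x ∈ Tb.tube G 0 (Metric.ball 0 m) ρ₀ ∧ |Tb.sd G 0 x| ≤ 2 * ε := fun x hx hb => by
  have hb' := mem_ball_zero_iff.1 hb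
  obtain ⟨y, y1, y2⟩ := h1.1 x hx hb'
  have y0 : 0 ≤ dist x y := dist_nonneg
  have y3 : ‖y‖ < ε⁻¹ := by
    have := norm_le_norm_add_norm_sub' y x
    rw [← dist_eq_norm, dist_comm] at this; linarith
  obtain ⟨z, z1, z2⟩ := h2.2 y y1 y3
  have z3 : dist x z < 2 * ε := by
    have := dist_triangle_right x z y; linarith
  have z4 := Tb.mem_tube (ρ := ρ₀) (U := Metric.ball 0 m) hG
    (Tb.cl_of_proper hP fun y hy => ⟨hy, trivial⟩) z1 (by linarith) (ball_sub (by linarith))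
  exact ⟨z4, (Tb.abs_sd_le hG gre z4 z1).trans z3.le⟩

theorem ex_min {a b c d : ℝ} (ha : 0 < a) (hb : 0 < b) (hc : 0 < c) (hd : 0 < d) :
    ∃ x, 0 < x ∧ x ≤ a ∧ x ≤ b ∧ x ≤ c ∧ x ≤ d :=
  ⟨min (min a b) (min c d), lt_min (lt_min ha hb) (lt_min hc hd),
    (min_le_left _ _).trans (min_le_left _ _), (min_le_left _ _).trans (min_le_right _ _),
    (min_le_right _ _).trans (min_le_left _ _), (min_le_right _ _).trans (min_le_right _ _)⟩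

theorem ex_max (a b c d : ℝ) : ∃ x, a ≤ x ∧ b ≤ x ∧ c ≤ x ∧ d ≤ x :=
  ⟨max (max a b) (max c d),
    (le_max_left _ _).trans (le_max_left _ _), (le_max_right _ _).trans (le_max_left _ _),
    (le_max_left _ _).trans (le_max_right _ _), (le_max_right _ _).trans (le_max_right _ _)⟩

theorem ex_exp {μ : ℝ} (hμ : 1 < μ) : ∃ μ' η θ : ℝ, 1 < μ' ∧ μ' ≤ 4 / 3 ∧ μ' ≤ μ ∧ 0 < η ∧ η < 1 ∧
    1 / 2 < θ ∧ 2 * θ < μ' * (1 - η) ^ 2 := by
  obtain ⟨η, h0, h1, h2, -⟩ := ex_min (a := (μ - 1) / 4) (b := 1 / 12) (c := 1) (d := 1)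
    (by linarith) (by norm_num) one_pos one_pos
  exact ⟨1 + 4 * η, η, (1 + η) / 2, by linarith, by linarith, by linarith, h0, by linarith,
    by linarith, by nlinarith [mul_pos h0 h0, mul_pos (mul_pos h0 h0) h0]⟩

set_option maxHeartbeats 1000000 in
theorem staticS_of (hSt : StatS) (hI : ImpS) (hE : EnS) (hB : StartS) : StaticS := by
  intro S Λ hS hAR ⟨n, f, ρ', C₀, μ, N₀, hc, hρ', hC₀, hμ, hF⟩
  obtain ⟨ρ₀, ρ₀p, ρ₀l, ρ₀1, -⟩ := ex_min hρ' one_pos one_pos one_pos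
  obtain ⟨μ', η, θ, m1, m2, m3, hη0, hη1, hθ1, hθ⟩ := ex_exp hμ
  refine ⟨η, θ, hη0, hη1, hθ1, fun η₀ hη₀ => ?_⟩
  obtain ⟨a₀, ha₀, -, h1⟩ := S1.s1 hη₀ ρ₀p
  refine ⟨a₀, ha₀, fun ρ₁ C κ r₀ hρ₁ hκ l N R S' hS' hM hR hCv hA => ?_⟩
  obtain ⟨δ₁, δ₁p, h1a⟩ := h1 ρ₁ hρ₁
  obtain ⟨δ₂, R₂, C₂, δ₂p, C₂p, h2⟩ := hSt S Λ ρ₀ ρ₁ n f hS hAR hc ρ₀p ρ₀1 hρ₁
  obtain ⟨δ₀, δ₀p, h0⟩ := hI Λ ρ₀ ρ₁ ρ₀p ρ₀1 hρ₁
  obtain ⟨δ₃, C₃, δ₃p, C₃p, h3⟩ := hE Λ ρ₀ ρ₁ ρ₀p ρ₀1 hρ₁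
  obtain ⟨K, Kp, hK⟩ := fv_le hc.sm hc.cs ρ₀p
  obtain ⟨δ, δp, d0, d1, d2, d3⟩ := ex_min δ₀p δ₁p δ₂p δ₃p
  obtain ⟨κ', κp, k1', k2', -⟩ := ex_min hκ (show (0 : ℝ) < 1 / 32 by norm_num) one_pos one_pos
  obtain ⟨C', c1, c2, c3, c4⟩ := ex_max C (K * C₂ + 1) C₂ 1
  have C'p : 0 < C' := by linarith
  obtain ⟨R₃, h0a⟩ := h0 δ κ' C' δp d0 κp C'p
  obtain ⟨R₁, r2, r3, r0, r4⟩ := ex_max R₂ R₃ (r₀ + 1) 4
  obtain ⟨b1, b2, b3⟩ := hB S S' l N hS hS' hM hCv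
  obtain ⟨ρs, ρsp, b1⟩ := b1 (R₁ + 2)
  obtain ⟨δs, δsp, h1b⟩ := h1 ρs ρsp
  obtain ⟨ρa, ha⟩ := ev_alt (C₀ * C₂) N₀
  obtain ⟨L, L1, L2, -⟩ := ex_max (R₁ + 5) ρa 0 0
  have Lp : 0 < L := by linarith
  obtain ⟨ε, εp, e1, e2, e3, e4⟩ := ex_min (half_pos δp) (half_pos δsp)
    (show 0 < ρ₀ / 4 by linarith) (inv_pos.2 Lp)
  rw [le_inv_comm₀ εp Lp] at e4
  obtain ⟨δF, δFp, hF⟩ := hF ε εp
  have z0 : Tendsto (fun k i => ∫ x, f i x ∂(N k).mu 0 - ∫ x, f i x ∂S.mu 0) l (𝓝 0) :=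
    tendsto_pi_nhds.2 fun i => by
      simpa using (b3 (f i) (hc.sm i).continuous (hc.cs i)).sub_const (∫ x, f i x ∂S.mu 0)
  filter_upwards [hA, b1, b2 (R₁ + 2) ε εp, b2 R₂ δ₂ δ₂p,
    (tendsto_zero_iff_norm_tendsto_zero.1 z0).eventually (gt_mem_nhds δFp),
    (hR.const_mul_atTop (sub_pos.2 hη1)).eventually_gt_atTop δF⁻¹,
    hR.eventually (ev_fin (μ := μ') (η := η) (θ := θ)
      (C₀ * C₂ ^ μ + C₀ + C₃ * ((K * C₂ + 1) ^ 2 + C₂ + 1)) (by linarith) hη1 hθ)]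
    with k hk k1 k2 k3 k4 k5 k6
  clear h1 h0 b1 b2 b3 z0 hA hCv hR hSt hI hE hB
  generalize N k = Nk at *
  generalize R k = Rk at *
  obtain ⟨G, ρ, c, hG, hρ, hN⟩ := hF _ _ _ k4 k5 (tol_pos Rk)
  clear hF
  have ρL : L ≤ ρ := e4.trans hρ
  have Rp : 0 < Rk := (mul_pos_iff_of_pos_left (sub_pos.2 hη1)).1 ((inv_pos.2 δFp).trans k5)
  have ρr := hG.le
  have ρR : ρ ≤ Rk := by linarith [mul_pos hη0 Rp]
  have gre : ∀ x ∈ G.sl 0, ‖x‖ < ρ + 3 → G.Reach (x, 0) ρ₀ := fun x hx h =>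
    S1.reach_le hG.reg hx (hG.reach x hx h) ρ₀p ρ₀l
  have gre' : ∀ x ∈ G.sl 0, x ∈ Metric.ball (0 : E) (ρ + 3) → G.Reach (x, 0) ρ₀ := fun x hx h =>
    gre x hx (mem_ball_zero_iff.1 h)
  have cx : Ctx Nk Λ G (ρ + 3) ρ₀ :=
    ⟨hk.reg, hk.st, hk.closed, hk.ar, hG.reg, hG.st, hG.proper, gre⟩
  -- the static estimate at radius `s`
  have stat : ∀ s, R₁ ≤ s → s ≤ ρ → Nr Nk G (ρ + 3) ρ₀ s ρ₁ δ →
      ‖c‖ ≤ C₂ * Real.exp (-(s - 2) ^ 2 / 8) ∧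
      H1 Nk G (s - 1) ≤ ENNReal.ofReal (C₂ * Real.exp (-(s - 2) ^ 2 / 8) ^ 2) ∧
      ∀ y ∈ G.sl 0, ‖y‖ < ρ + 3 → |G.shr (y, 0)| ≤ (K * C₂ + 1) * Real.exp (-(s - 2) ^ 2 / 8) := by
    intro s s1 s2 hs
    have q1 : (s - 2) ^ 2 ≤ Rk ^ 2 := pow_le_pow_left₀ (by linarith) (by linarith) 2
    obtain ⟨τw, τg⟩ := tol_le (R := Rk) (w := Real.exp (-(s - 2) ^ 2 / 8))
      (Real.exp_le_exp.2 (by linarith))
    have lg : Lag G f c (ρ + 3) (Real.exp (-(s - 2) ^ 2 / 8)) := fun y hy hm =>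
      (hG.el y hy hm).trans (τg y (by linarith))
    obtain ⟨t1, t2⟩ := h2 Nk G (ρ + 3) s _ c cx (r2.trans s1) (by linarith) (hs.mono d2)
      (near_mono hN (by linarith) (by linarith)) k3 lg
      (fun i => le_trans (by have := hG.pair i; rwa [sub_sub, add_sub_cancel] at this) τw)
      (hk.dis.trans (ENNReal.ofReal_le_ofReal (by
        rw [← Real.exp_nat_mul]; exact Real.exp_le_exp.2 (by push_cast; linarith))))
      le_rfl (el1 _ (by norm_num))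
    refine ⟨t1, t2, fun y hy hm => (shr_le lg hy hm (hK G y c hG.reg hy (gre y hy hm))).trans ?_⟩
    linarith [mul_le_mul_of_nonneg_left t1 Kp.le]
  have ind : ∀ j : ℕ, R₁ + j ≤ ρ → Nr Nk G (ρ + 3) ρ₀ (R₁ + j) ρ₁ δ := by
    intro j
    induction j with
    | zero =>
      intro _
      have tb := start_tube hG.reg hG.proper gre' k2 hN (by linarith) ρ₀1 (by linarith) (by linarith)
      have bt := hk.boot R₁ (by linarith) (by linarith) fun x hx hr =>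
        h1b G Nk 0 0 (Metric.ball 0 (R₁ + 2)) _ hG.reg gre' hk.reg Metric.isOpen_ball
          (fun y hy hb => k1 y hy (mem_ball_zero_iff.1 hb)) (closed_sl hk.closed _)
          (fun w hw hb => ⟨(tb w hw hb).1, (tb w hw hb).2.trans (by linarith)⟩) x hx
          (ball_sub (by linarith))
      intro x hx hr
      simp only [Nat.cast_zero, add_zero] at hr
      have := tb x hx (mem_ball_zero_iff.2 (by linarith))
      exact ⟨(bt x hx (by linarith)).1, this.1, this.2.trans (by linarith)⟩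
    | succ j ih =>
      intro hj
      push_cast at hj ⊢
      have j0 : R₁ ≤ R₁ + j := le_add_of_nonneg_right j.cast_nonneg
      have hs := ih (by linarith)
      rw [← add_assoc] at hj ⊢
      generalize R₁ + j = s at *
      obtain ⟨-, t2, t3⟩ := stat s j0 (by linarith) hs
      have bt := hk.boot (s - 1) (by linarith) (by linarith) fun x hx hr =>
        h1a G Nk 0 0 (Metric.ball 0 s) _ hG.reg gre' hk.reg Metric.isOpen_ball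
          (fun y hy hb => (hs y hy (mem_ball_zero_iff.1 hb)).1) (closed_sl hk.closed _)
          (fun w hw hb => ⟨(hs w hw (mem_ball_zero_iff.1 hb)).2.1,
            (hs w hw (mem_ball_zero_iff.1 hb)).2.2.trans d1⟩) x hx (ball_sub (by linarith))
      obtain ⟨w1, w2, w3⟩ := exp_cmp (s := s) (R := Rk) hκ k1' k2' (by linarith) (by linarith)
      refine h0a Nk G (ρ + 3) s cx (by linarith) (by linarith) hs (fun x hx hr => ?_)
        (fun y hy hm => (t3 y hy hm).trans ?_) (t2.trans (ENNReal.ofReal_le_ofReal ?_))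
      · refine ⟨(bt x hx (by linarith)).1, (bt x hx (by linarith)).2.trans ?_⟩
        exact mul_le_mul c1 w3 (Real.exp_pos _).le C'p.le
      · exact mul_le_mul c2 w1 (Real.exp_pos _).le C'p.le
      · exact mul_le_mul c3 w2 (by positivity) C'p.le
  have f1 := Nat.floor_le (show 0 ≤ ρ - R₁ by linarith)
  have f2 := Nat.lt_floor_add_one (ρ - R₁)
  have hs := ind ⌊ρ - R₁⌋₊ (by linarith)
  obtain ⟨s, hs, s1, s2, s3⟩ : ∃ s, Nr Nk G (ρ + 3) ρ₀ s ρ₁ δ ∧ R₁ ≤ s ∧ s ≤ ρ ∧ ρ - 1 ≤ s :=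
    ⟨_, hs, le_add_of_nonneg_right (Nat.cast_nonneg _), by linarith, by linarith⟩
  obtain ⟨t1, t2, t3⟩ := stat s s1 s2 hs
  have hρr : ρ = (1 - η) * Rk := by
    refine hG.alt.resolve_right (not_le.2 (lt_of_le_of_lt ?_ (ha ρ (L2.trans ρL))))
    have q1 : (ρ - 3) ^ 2 ≤ (s - 2) ^ 2 := pow_le_pow_left₀ (by linarith) (by linarith) 2
    have q2 : Real.exp (-(s - 2) ^ 2 / 8) ≤ Real.exp (-(ρ - 3) ^ 2 / 8) :=
      Real.exp_le_exp.2 (by linarith)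
    have q3 : 0 ≤ C₀ * ρ ^ N₀ := mul_nonneg hC₀.le (pow_nonneg (by linarith) _)
    calc C₀ * ρ ^ N₀ * ‖c‖ ≤ C₀ * ρ ^ N₀ * (C₂ * Real.exp (-(ρ - 3) ^ 2 / 8)) :=
          mul_le_mul_of_nonneg_left (t1.trans (mul_le_mul_of_nonneg_left q2 C₂p.le)) q3
      _ = _ := by ring
  have F0 : 0 ≤ S.Fs 0 0 1 := integral_nonneg fun x => (A.gau_pos one_pos 0 x).le
  have en := h3 Nk G (ρ + 3) s _ _ _ cx (by linarith) (by linarith) (hs.mono d3) (by positivity)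
    (by positivity) t3 t2 hG.en
  have fin := k6 s (by linarith)
  have := fin_num (A := K * C₂ + 1) hC₀ C₂p C₃p m1 m2 m3 (by linarith) s2 (norm_nonneg c) t1
  linarith

end Crest.Agent.N250.R

end
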