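import Crest.Agent.N250.R.Bar
import Crest.Agent.N250.Tb.T2
import Crest.Agent.N250.Tb.J
import Crest.Agent.N250.T.Reach

/-!
# Row 250 (helper59): the geometric induction step of the static inequality

A surface that stays in the tube of a model on `B_s`, is very close to it on a fixed sphere and is
an almost shrinker on `B_{s+1}` stays in the tube on `B_{s+1}`.
-/

set_option autoImplicit false
open MeasureTheory Set Filter Topology Metric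
open scoped ContDiff InnerProductSpace
open Crest.GeometryTopology.MCF

noncomputable section

namespace Crest.Agent.N250.Sp

open Tb Bar

variable {F : Mv} {p : ST} {ρ : ℝ}

theorem A2_le (hF : F.Reg) (hp : p ∈ F.M) (hρ : 0 < ρ) (h : F.Reach p ρ) :
    F.A2 p ≤ (2 / ρ) ^ 2 := by
  refine (reachAS_holds F hF p hp ρ hρ h).2.trans ?_
  rw [div_pow]
  exact div_le_div_of_nonneg_right (by norm_num) (by positivity)

theorem abs_H_le (hF : F.Reg) (hp : p ∈ F.M) (hρ : 0 < ρ) (h : F.Reach p ρ) :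
    |F.H p| ≤ 2 / ρ := by
  refine abs_le_of_sq_le_sq' ?_ (by positivity) |> abs_le.2
  have h1 := (reachAS_holds F hF p hp ρ hρ h).2
  have h2 := H_sq_le hF hp
  have e : (2 / ρ) ^ 2 = 2 * (2 / ρ ^ 2) := by ring
  linarith

theorem abs_xn_le (hF : F.Reg) (hp : p ∈ F.M) (hρ : 0 < ρ) (h : F.Reach p ρ)
    (he : |F.shr p| ≤ 1) : |F.xn 0 p| ≤ 4 / ρ + 2 := by
  have h1 := abs_le.1 (abs_H_le hF hp hρ h)
  have h2 := abs_le.1 he
  have e : 4 / ρ = 2 * (2 / ρ) := by ring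
  rw [Mv.shr] at h2
  exact abs_le.2 ⟨by linarith [h1.1, h2.2], by linarith [h1.2, h2.1]⟩

theorem closed_sl (hc : IsClosed F.M) (t : ℝ) : IsClosed (F.sl t) :=
  hc.preimage (f := fun x : E => ((x, t) : ST)) (by fun_prop)

theorem cpt_An (hc : IsClosed F.M) (t r₁ r₂ : ℝ) : IsCompact (An F t r₁ r₂) := by
  refine (isCompact_closedBall (0 : E) r₂).of_isClosed_subset ?_ fun x hx =>
    mem_closedBall_zero_iff.2 hx.2.2
  exact (closed_sl hc t).inter ((isClosed_le continuous_const continuous_norm).inter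
    (isClosed_le continuous_norm continuous_const))

/-- a truncation of `d²` -/
theorem exists_trunc {δ : ℝ} (hδ : 0 < δ) (hρ : δ ≤ ρ / 4) : ∃ (ψ : ℝ → ℝ) (B : ℝ), 0 < B ∧
    ContDiff ℝ 1 ψ ∧ (∀ d, |d| ≤ δ → ψ d = d ^ 2) ∧ (∀ d, ρ / 2 ≤ |d| → ψ d = δ ^ 2) ∧
    (∀ d, ψ d < δ ^ 2 → |d| ≤ δ) ∧ ∀ d, |d| ≤ ρ → |deriv ψ d| ≤ B := by
  let β : ContDiffBump (0 : ℝ) := ⟨δ, ρ / 2, hδ, by linarith⟩
  have hc : ContDiff ℝ 1 fun d : ℝ => δ ^ 2 + β d * (d ^ 2 - δ ^ 2) :=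
    contDiff_const.add (β.contDiff.mul ((contDiff_id.pow 2).sub contDiff_const))
  obtain ⟨B, hB⟩ := (isCompact_closedBall (0 : ℝ) ρ).exists_bound_of_continuousOn
    (hc.continuous_deriv le_rfl).continuousOn
  refine ⟨_, |B| + 1, by positivity, hc, fun d hd => ?_, fun d hd => ?_, fun d hd => ?_,
    fun d hd => ?_⟩
  · rw [β.one_of_mem_closedBall (by simpa using hd)]; ring
  · rw [β.zero_of_le_dist (by simpa using hd)]; ring
  · by_contra hcon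
    have h1 : δ ^ 2 ≤ d ^ 2 := by
      rw [← sq_abs d]; exact pow_le_pow_left₀ hδ.le (not_le.1 hcon).le 2
    have := mul_nonneg (β.nonneg (x := d)) (sub_nonneg.2 h1)
    linarith
  · have := hB d (by simpa using hd)
    rw [Real.norm_eq_abs] at this
    linarith [le_abs_self B]

/-- first order extension of the tubular closeness across an annulus -/
theorem ext {ρ₀ δ K : ℝ} (h1 : ρ₀ ≤ 1) (hδ : 0 < δ) (hδ' : δ ≤ ρ₀ / 4) (hK : 0 ≤ K) :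
    ∃ L, 0 < L ∧ ∀ (G N : Mv) (t t' P r₁ r₂ a : ℝ), G.Reg →
      (∀ y ∈ G.sl t, y ∈ ball (0 : E) P → G.Reach (y, t) ρ₀) →
      (∀ y ∈ closure (G.sl t), y ∈ ball (0 : E) P → y ∈ G.sl t) → N.Reg → IsClosed N.M →
      0 < r₁ → 2 * K ≤ r₁ → r₂ + 1 ≤ P → (∀ x ∈ An N t' r₁ r₂, |N.xn 0 (x, t')| ≤ K) →
      (∀ y ∈ G.sl t, r₁ - 1 ≤ ‖y‖ → ‖y‖ < P → |G.xn 0 (y, t)| ≤ K) →
      (∀ x ∈ N.sl t', ‖x‖ = r₁ → x ∈ tube G t (ball 0 P) ρ₀ ∧ |sd G t x| ≤ a) → a ≤ δ →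
      a ^ 2 + L * (r₂ ^ 2 - r₁ ^ 2) / r₁ ^ 2 < δ ^ 2 →
      ∀ x ∈ An N t' r₁ r₂, x ∈ tube G t (ball 0 P) ρ₀ ∧ |sd G t x| ≤ δ := by
  classical
  obtain ⟨ψ, B, hB, c1, c2, c3, c4, c5⟩ := exists_trunc hδ hδ'
  refine ⟨B * (2 * K + 1), by positivity, ?_⟩
  intro G N t t' P r₁ r₂ a hG hR hC hN hc hr hr' hP hn hn' h0 ha hs
  have hT := tub hG hR isOpen_ball
  obtain ⟨u, hu⟩ : ∃ u : ST → ℝ, u = fun q =>
    if q.1 ∈ tube G t (ball 0 P) ρ₀ then ψ (ht (sd G t) q) else δ ^ 2 := ⟨_, rfl⟩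
  have u1 : ∀ q : ST, q.1 ∈ tube G t (ball 0 P) ρ₀ →
      u =ᶠ[𝓝 q] fun q => ψ (ht (sd G t) q) := fun q hq =>
    (hT.evW hq).mono fun q' h' => by rw [hu]; exact if_pos h'
  have u2 : ∀ q : ST, ‖q.1‖ ≤ r₂ → q.1 ∉ tube G t (ball 0 P) ρ₀ →
      u =ᶠ[𝓝 q] fun _ => δ ^ 2 := fun q hq hq' => by
    have far : ∀ z ∈ G.sl t, ρ₀ ≤ dist q.1 z := fun z hz => by
      by_contra hcon
      refine hq' (mem_tube hG hC hz (not_le.1 hcon) fun w hw => ?_)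
      rw [mem_ball_zero_iff]
      have := norm_le_norm_add_const_of_dist_le (mem_closedBall.1 hw)
      linarith [not_le.1 hcon]
    have : ∀ᶠ q' : ST in 𝓝 q, q'.1 ∈ ball q.1 (ρ₀ / 2) :=
      continuous_fst.continuousAt.eventually (ball_mem_nhds _ (by linarith))
    refine this.mono fun q' h' => ?_
    rw [hu]
    by_cases hm : q'.1 ∈ tube G t (ball 0 P) ρ₀
    · simp only [if_pos hm]
      refine c3 _ ?_
      have e1 := dist_pr hG hR hm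
      have e2 := far _ (pr_mem hG hR hm)
      have e3 := dist_triangle q.1 q'.1 (pr G t q'.1)
      have e4 : dist q.1 q'.1 < ρ₀ / 2 := mem_ball'.1 h'
      rw [ht]; linarith
    · simp only [if_neg hm]
  have key := s6 (u := u) (K := K) (L := B * (2 * K + 1)) (a := a ^ 2) hN (by positivity) hr' hr
    (cpt_An hc t' r₁ r₂) (fun x hx => ?_) (fun x hx => ⟨hn x hx, ?_⟩) fun x hx hx' => ?_
  · intro x hx
    have h2 := (key x hx).trans_lt hs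
    rw [hu] at h2
    by_cases hm : x ∈ tube G t (ball 0 P) ρ₀
    · simp only [if_pos hm] at h2
      exact ⟨hm, c4 _ h2⟩
    · simp only [if_neg hm] at h2
      exact absurd h2 (lt_irrefl _)
  · by_cases hm : x ∈ tube G t (ball 0 P) ρ₀
    · exact ((c1.contDiffAt.comp (x, t') ((hT.ht_at (p := (x, t')) hm).of_le
        (by simp))).congr_of_eventuallyEq (u1 _ hm)).contDiffWithinAt
    · exact (contDiffAt_const.congr_of_eventuallyEq (u2 (x, t') hx.2.2 hm)).contDiffWithinAt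
  · have hp : ((x, t') : ST) ∈ N.M := hx.1
    by_cases hm : x ∈ tube G t (ball 0 P) ρ₀
    · have e : ∀ i, N.D i u (x, t') = deriv ψ (sd G t x) * N.D i (ht (sd G t)) (x, t') := fun i => by
        rw [Mv.D_congr hp ((u1 (x, t') hm).filter_mono nhdsWithin_le_nhds)]
        exact hT.td_psi hG hN hp hm (c1.differentiable (by simp) _).hasDerivAt (hN.tg_PL hp _)
      have e2 : ∑ i, x i * N.D i u (x, t') =
          deriv ψ (sd G t x) * xD N (ht (sd G t)) (x, t') := by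
        rw [xD, Finset.mul_sum]
        exact Finset.sum_congr rfl fun i _ => by rw [e]; ring
      have b1 := abs_sd_lt hG hR hm
      have b2 : |G.xn 0 (pr G t x, t)| ≤ K := by
        refine hn' _ (pr_mem hG hR hm) ?_ (mem_ball_zero_iff.1 (pr_memU hG hR hm))
        have := norm_le_norm_add_const_of_dist_le (dist_pr hG hR hm).le
        linarith [hx.2.1]
      have b3 : |cs G t (pr G t) N (x, t') * N.xn 0 (x, t')| ≤ K := by
        rw [abs_mul]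
        have := (sq_le_one_iff_abs_le_one _).1 (hT.cs_sq_le hG hN hp hm)
        exact (mul_le_of_le_one_left (abs_nonneg _) this).trans (hn x hx)
      have b4 : |xD N (ht (sd G t)) (x, t')| ≤ 2 * K + 1 := by
        rw [hT.xD_ht hG hN hp hm]
        have := abs_sub (G.xn 0 (pr G t x, t) + sd G t x)
          (cs G t (pr G t) N (x, t') * N.xn 0 (x, t'))
        have := abs_add_le (G.xn 0 (pr G t x, t)) (sd G t x)
        simp only [ht]; linarith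
      rw [e2]
      refine (le_abs_self _).trans ?_
      rw [abs_mul]
      exact mul_le_mul (c5 _ b1.le) b4 (abs_nonneg _) hB.le
    · have e : ∀ i, N.D i u (x, t') = 0 := fun i => by
        rw [Mv.D_congr hp ((u2 (x, t') hx.2.2 hm).filter_mono nhdsWithin_le_nhds)]
        exact hN.D_const hp _ _
      simp only [e, mul_zero, Finset.sum_const_zero]
      positivity
  · obtain ⟨hm, h2⟩ := h0 x hx hx'
    rw [hu]
    simp only [if_pos hm, ht]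
    rw [c2 _ (h2.trans ha), ← sq_abs]
    exact pow_le_pow_left₀ (abs_nonneg _) h2 2

/-- the height equation as a differential inequality -/
theorem ht_ineq {G N : Mv} {t ρ₀ e : ℝ} {U : Set E} (hG : G.Reg) (hU : IsOpen U)
    (hR : ∀ y ∈ G.sl t, y ∈ U → G.Reach (y, t) ρ₀) (h0 : 0 < ρ₀) (hN : N.Reg) (hp : p ∈ N.M)
    (hm : p.1 ∈ tube G t U ρ₀) (hd : |sd G t p.1| ≤ ρ₀ / 4) (h1 : |N.shr p| ≤ e)
    (h2 : |G.shr (pr G t p.1, t)| ≤ e) :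
    |N.lap (ht (sd G t)) p - (∑ i, p.1 i * N.D i (ht (sd G t)) p) / 2| ≤
      (4 * (2 / ρ₀) ^ 2 + 1 / 2) * |ht (sd G t) p| +
        4 / ρ₀ * √(N.gam (ht (sd G t)) (ht (sd G t)) p) + 2 * e := by
  have hT := tub hG hR hU
  have hκ : 0 < 2 / ρ₀ := by positivity
  have a1 := A2_le hG (hT.mem _ hm) h0 (pr_reach hG hR hm)
  have a2 : |ht (sd G t) p| * (2 / ρ₀) ≤ 1 / 2 := by
    rw [ht, ← le_div_iff₀ hκ]
    refine hd.trans (le_of_eq ?_); field_simp; norm_num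
  have k := hT.key hG hN hp hm hκ.le a1 a2
  have g1 := hT.gam_ht_le hG hN hp hm
  have g0 : 0 ≤ N.gam (ht (sd G t)) (ht (sd G t)) p := by
    rw [Mv.gam_apply]; exact Finset.sum_nonneg fun _ _ => mul_self_nonneg _
  have g2 : N.gam (ht (sd G t)) (ht (sd G t)) p ≤ √(N.gam (ht (sd G t)) (ht (sd G t)) p) := by
    refine Real.le_sqrt_of_sq_le ?_; nlinarith
  have b3 : |N.shr p * cs G t (pr G t) N p| ≤ e := by
    rw [abs_mul]
    have := (sq_le_one_iff_abs_le_one _).1 (hT.cs_sq_le hG hN hp hm)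
    exact (mul_le_of_le_one_right (abs_nonneg _) this).trans h1
  have a0 := A2_nonneg G (pr G t p.1, t)
  have b4 : |(G.A2 (pr G t p.1, t) + 1 / 2) * ht (sd G t) p| ≤
      ((2 / ρ₀) ^ 2 + 1 / 2) * |ht (sd G t) p| := by
    rw [abs_mul, abs_of_nonneg (by linarith)]
    exact mul_le_mul_of_nonneg_right (by linarith) (abs_nonneg _)
  have b5 : 6 * (2 / ρ₀) ^ 3 * ht (sd G t) p ^ 2 ≤ 3 * (2 / ρ₀) ^ 2 * |ht (sd G t) p| := by
    rw [← sq_abs]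
    have : 0 ≤ 6 * (2 / ρ₀) ^ 2 * |ht (sd G t) p| := by positivity
    nlinarith [mul_le_mul_of_nonneg_left a2 this]
  have b6 := mul_le_mul_of_nonneg_left g2 (by positivity : 0 ≤ 2 * (2 / ρ₀))
  have e4 : 4 / ρ₀ = 2 * (2 / ρ₀) := by ring
  rw [e4]
  change |N.lap (ht (sd G t)) p - xD N (ht (sd G t)) p / 2| ≤ _
  have k1 := abs_le.1 k
  have k2 := abs_le.1 h2
  have k3 := abs_le.1 b3
  have k4 := abs_le.1 b4
  exact abs_le.2 ⟨by linarith [k1.1, k2.1, k3.2, k4.2], by linarith [k1.2, k2.2, k3.1, k4.1]⟩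

/-- the barrier estimate for the signed distance -/
theorem barr {ρ₀ c γ : ℝ} (h0 : 0 < ρ₀) (h1 : ρ₀ ≤ 1) (hc : 0 < c) (hγ : 0 < γ) (hγ' : γ ≤ 1 / 5) :
    ∃ R₁, 0 < R₁ ∧ ∀ (G N : Mv) (t t' R₀ r a b e : ℝ) (U : Set E), G.Reg → IsOpen U →
      (∀ y ∈ G.sl t, y ∈ U → G.Reach (y, t) ρ₀) → N.Reg → IsClosed N.M → R₁ ≤ R₀ → 0 ≤ a →
      0 ≤ b → b ≤ ρ₀ / 4 → 0 ≤ e → e ≤ 1 →
      (∀ x ∈ An N t' R₀ r, N.Reach (x, t') c ∧ |N.shr (x, t')| ≤ e ∧ x ∈ tube G t U ρ₀ ∧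
        |sd G t x| ≤ b) →
      (∀ y ∈ G.sl t, y ∈ U → R₀ - 1 ≤ ‖y‖ → |G.shr (y, t)| ≤ e) →
      (∀ x ∈ N.sl t', ‖x‖ = R₀ → |sd G t x| ≤ a) → R₀ ≤ r →
      ∀ x ∈ An N t' R₀ r, |sd G t x| ≤
        (a + 2 * e) * Real.exp (γ * ‖x‖ ^ 2) + b * Real.exp ((‖x‖ ^ 2 - r ^ 2) / 5) := by
  obtain ⟨R₁, hR₁, H⟩ := s5 (K := 4 * (2 / ρ₀) ^ 2 + 1 / 2 + 4 / ρ₀ + (4 / c + 2))
    (by positivity) hγ hγ'
  refine ⟨R₁, hR₁, ?_⟩
  intro G N t t' R₀ r a b e U hG hU hR hN hcl hR₀ ha hb hb' he he' hA hs hin hr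
  have hT := tub hG hR hU
  refine H N t' R₀ r a b (2 * e) (ht (sd G t)) hN hR₀ ha hb (by positivity) (cpt_An hcl t' _ _)
    (fun x hx => ((hT.ht_at (p := (x, t')) (hA x hx).2.2.1).of_le
      (WithTop.coe_le_coe.2 le_top)).contDiffWithinAt)
    (fun x hx i1 i2 => ?_) hin fun x hx hx' => (hA x ⟨hx, hx' ▸ hr, hx'.le⟩).2.2.2
  obtain ⟨k1, k2, k3, k4⟩ := hA x ⟨hx, i1.le, i2.le⟩
  have p1 : 0 ≤ 4 * (2 / ρ₀) ^ 2 := by positivity
  have p2 : 0 ≤ 4 / ρ₀ := by positivity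
  have p3 : 0 ≤ 2 / c := by positivity
  have p4 : 4 / c = 2 * (2 / c) := by ring
  refine ⟨(abs_H_le hN hx hc k1).trans (by linarith),
    (abs_xn_le hN hx hc k1 (k2.trans he')).trans (by linarith), ?_⟩
  refine (ht_ineq (p := (x, t')) hG hU hR h0 hN hx k3 (k4.trans hb') k2
    (hs _ (pr_mem hG hR k3) (pr_memU hG hR k3) ?_)).trans ?_
  · have := norm_le_norm_add_const_of_dist_le (dist_pr hG hR k3).le
    have := abs_sd_lt hG hR k3
    linarith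
  · have q1 := abs_nonneg (ht (sd G t) (x, t'))
    have q2 := Real.sqrt_nonneg (N.gam (ht (sd G t)) (ht (sd G t)) (x, t'))
    gcongr <;> linarith

/-- **the geometric step** `P(s) ⟹ P(s + 1)` -/
theorem step {ρ₀ c δ γ : ℝ} (h0 : 0 < ρ₀) (h1 : ρ₀ ≤ 1) (hc : 0 < c) (hδ : 0 < δ)
    (hδ' : δ ≤ ρ₀ / 4) (hγ : 0 < γ) (hγ' : γ ≤ 1 / 5) : ∃ R₁, 0 < R₁ ∧ ∀ R₀, R₁ ≤ R₀ →
    ∃ s₁, 0 < s₁ ∧ ∀ (G N : Mv) (ρ s a e : ℝ), G.Reg → G.Proper (ball 0 (ρ + 3) ×ˢ univ) →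
      (∀ y ∈ G.sl 0, ‖y‖ < ρ + 3 → G.Reach (y, 0) ρ₀) → N.Reg → IsClosed N.M → s₁ ≤ s →
      s ≤ ρ + 1 → (∀ x ∈ N.sl 0, ‖x‖ < s + 1 → N.Reach (x, 0) c ∧ |N.shr (x, 0)| ≤ e) →
      (∀ y ∈ G.sl 0, R₀ - 1 ≤ ‖y‖ → ‖y‖ < ρ + 3 → |G.shr (y, 0)| ≤ e) → 0 ≤ a → 0 ≤ e → e ≤ 1 →
      (∀ x ∈ N.sl 0, ‖x‖ < s → x ∈ tube G 0 (ball 0 (ρ + 3)) ρ₀ ∧ |sd G 0 x| ≤ δ) →
      (∀ x ∈ N.sl 0, ‖x‖ = R₀ → |sd G 0 x| ≤ a) → (a + 2 * e) * Real.exp (γ * s ^ 2) ≤ δ / 4 →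
      ∀ x ∈ N.sl 0, ‖x‖ < s + 1 → x ∈ tube G 0 (ball 0 (ρ + 3)) ρ₀ ∧ |sd G 0 x| ≤ δ := by
  obtain ⟨R₁, hR₁, H⟩ := barr h0 h1 hc hγ hγ'
  obtain ⟨K, hK⟩ : ∃ K, K = 4 / c + 2 + (4 / ρ₀ + 2) := ⟨_, rfl⟩
  have p2 : 0 ≤ 4 / ρ₀ := by positivity
  have p3 : 0 ≤ 4 / c := by positivity
  have hK0 : 0 ≤ K := by rw [hK]; positivity
  obtain ⟨L, hL, H'⟩ := ext h1 hδ hδ' hK0
  refine ⟨R₁, hR₁, fun R₀ hR₀ => ⟨R₀ + 2 * K + 20 + 48 * L / δ ^ 2, by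
    have := hR₁.trans_le hR₀
    positivity, ?_⟩⟩
  intro G N ρ s a e hG hP hR hN hcl hs hs' hB hsh ha he he' hT hin hsm x hx hx'
  have hR' : ∀ y ∈ G.sl 0, y ∈ ball (0 : E) (ρ + 3) → G.Reach (y, 0) ρ₀ := fun y hy h =>
    hR y hy (mem_ball_zero_iff.1 h)
  have q0 : 0 ≤ 48 * L / δ ^ 2 := by positivity
  have q1 := hR₁.trans_le hR₀
  by_cases hlt : ‖x‖ < s
  · exact hT x hx hlt
  have b1 := H G N 0 0 R₀ (s - 1) a δ e (ball 0 (ρ + 3)) hG isOpen_ball hR' hN hcl hR₀ ha hδ.le hδ'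
    he he' (fun y hy => ⟨(hB y hy.1 (by linarith [hy.2.2])).1, (hB y hy.1 (by linarith [hy.2.2])).2,
      hT y hy.1 (by linarith [hy.2.2])⟩) (fun y hy h h' => hsh y hy h' (mem_ball_zero_iff.1 h)) hin
    (by linarith)
  refine H' G N 0 0 (ρ + 3) (s - 2) ‖x‖ (δ / 2) hG hR'
    (cl_of_proper hP fun y hy => ⟨hy, mem_univ _⟩) hN hcl (by linarith) (by linarith) (by linarith)
    (fun y hy => ?_) (fun y hy h h' => ?_) (fun y hy hy' => ⟨(hT y hy (by linarith)).1, ?_⟩)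
    (by linarith) ?_ x ⟨hx, by linarith [not_lt.1 hlt], le_rfl⟩
  · obtain ⟨k1, k2⟩ := hB y hy.1 (hy.2.2.trans_lt hx')
    exact (abs_xn_le hN hy.1 hc k1 (k2.trans he')).trans (by linarith)
  · exact (abs_xn_le hG hy h0 (hR y hy h') ((hsh y hy (by linarith) h').trans he')).trans
      (by linarith)
  · refine (b1 y ⟨hy, by linarith, by linarith⟩).trans ?_
    rw [hy']
    have e1 : Real.exp (γ * (s - 2) ^ 2) ≤ Real.exp (γ * s ^ 2) :=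
      Real.exp_le_exp.2 (mul_le_mul_of_nonneg_left (by nlinarith) hγ.le)
    have e2 : Real.exp (((s - 2) ^ 2 - (s - 1) ^ 2) / 5) ≤ 1 / 4 := by
      have : Real.exp (((s - 2) ^ 2 - (s - 1) ^ 2) / 5) ≤ Real.exp (-3) :=
        Real.exp_le_exp.2 (by nlinarith)
      refine this.trans ?_
      rw [Real.exp_neg, one_div]
      exact inv_anti₀ (by norm_num) (by linarith [Real.add_one_le_exp (3 : ℝ)])
    have e3 := mul_le_mul_of_nonneg_left e1 (by positivity : 0 ≤ a + 2 * e)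
    have e4 := mul_le_mul_of_nonneg_left e2 hδ.le
    linarith
  · have s0 : 20 ≤ s := by linarith
    have e1 : ‖x‖ ^ 2 - (s - 2) ^ 2 ≤ 6 * s := by nlinarith [norm_nonneg x]
    have e2 : 48 * L ≤ s * δ ^ 2 := by
      rw [← div_le_iff₀ (by positivity)]; linarith
    have e3 : L * (‖x‖ ^ 2 - (s - 2) ^ 2) / (s - 2) ^ 2 ≤ δ ^ 2 / 2 := by
      rw [div_le_iff₀ (by nlinarith)]
      have e4 : s ^ 2 / 4 ≤ (s - 2) ^ 2 := by nlinarith
      have e5 := mul_le_mul_of_nonneg_left e1 hL.le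
      have e6 := mul_le_mul_of_nonneg_left e4 (by positivity : 0 ≤ δ ^ 2 / 2)
      have e7 := mul_le_mul_of_nonneg_left e2 (by positivity : 0 ≤ s / 8)
      nlinarith
    nlinarith [sq_pos_of_pos hδ]

end Crest.Agent.N250.Sp

end
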